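import Vale.Agent.P237.Statement

/-!
P237: the statements of Petty's inequality up to a subexponential factor and, away from
ellipsoids, exactly.
-/

noncomputable section

open MeasureTheory Set
open scoped RealInnerProductSpace Pointwise

namespace Vale.Agent.P237.Asymp

variable {n : ℕ}

/-- Petty's inequality for all convex bodies, up to a factor `exp (-ε n)` in high dimension. -/
def SubexponentialPetty : Prop :=
  ∀ ε : ℝ, 0 < ε → ∃ n₀ : ℕ, ∀ n, n₀ ≤ n → ∀ K : Set (E n),
    IsCompact K → Convex ℝ K → (interior K).Nonempty →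
      Real.exp (-(ε * n)) * (kappa (n - 1) ^ n * kappa n ^ ((2 : ℤ) - n)) * vol K ^ (n - 1) ≤
        vol (projectionBody K)

/-- The surface area of the ball with the volume of `K`. -/
def ballSurface (K : Set (E n)) : ℝ :=
  n * (kappa n * vol K ^ (n - 1)) ^ ((n : ℝ)⁻¹)

/-- The image of `K` under a linear map, thickened by the closed ball of radius `t`. -/
def thickened (K : Set (E n)) (T : E n →ₗ[ℝ] E n) (t : ℝ) : Set (E n) :=
  T '' K + Metric.closedBall 0 t

/-- In every volume preserving position the surface area exceeds that of the ball of equal volume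
by the factor `1 + ε`. For convex bodies the secant form below is the same as the bound on the
derivative at `t = 0`. -/
def FarFromEllipsoids (ε : ℝ) (K : Set (E n)) : Prop :=
  ∀ T : E n →ₗ[ℝ] E n, |LinearMap.det T| = 1 → ∀ t : ℝ, 0 < t →
    vol K + t * ((1 + ε) * ballSurface K) ≤ vol (thickened K T t)

/-- Petty's inequality with an exponential margin, away from ellipsoids, in high dimension. -/
def PettyAwayFromEllipsoids : Prop :=
  ∀ ε : ℝ, 0 < ε → ∃ γ : ℝ, 0 < γ ∧ ∃ n₀ : ℕ, ∀ n, n₀ ≤ n → ∀ K : Set (E n),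
    IsCompact K → Convex ℝ K → (interior K).Nonempty → FarFromEllipsoids ε K →
      Real.exp (γ * n) * (kappa (n - 1) ^ n * kappa n ^ ((2 : ℤ) - n)) * vol K ^ (n - 1) ≤
        vol (projectionBody K)

/-- The quantitative form: the loss is at most `exp (n ^ (4 / 5))`, and beyond an excess of
`n ^ (-1 / 12)` in surface area there is that much margin instead. -/
def PettyRate : Prop :=
  ∃ n₀ : ℕ, ∀ n, n₀ ≤ n → ∀ K : Set (E n), IsCompact K → Convex ℝ K → (interior K).Nonempty →
    Real.exp (-(n : ℝ) ^ (4 / 5 : ℝ)) * (kappa (n - 1) ^ n * kappa n ^ ((2 : ℤ) - n)) *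
        vol K ^ (n - 1) ≤ vol (projectionBody K) ∧
      (FarFromEllipsoids ((n : ℝ) ^ (-(1 / 12) : ℝ)) K →
        Real.exp ((n : ℝ) ^ (4 / 5 : ℝ)) * (kappa (n - 1) ^ n * kappa n ^ ((2 : ℤ) - n)) *
          vol K ^ (n - 1) ≤ vol (projectionBody K))

end Vale.Agent.P237.Asymp
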