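import Vale.Agent.P237.Asymp.Asymptotic

/-!
P237: the exact Petty inequality away from ellipsoids, in high dimension.
-/

noncomputable section

open MeasureTheory Set Matrix Filter
open scoped RealInnerProductSpace ENNReal Topology Pointwise

namespace Vale.Agent.P237.Asymp

variable {n N : ℕ}

/-- The secant lower bound `S` for the surface area of every unimodular image of `K`. -/
def SurfaceAtLeast (K : Set (E n)) (S : ℝ) : Prop :=
  ∀ T : Matrix (Fin n) (Fin n) ℝ, |T.det| = 1 → ∀ t : ℝ, 0 < t →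
    (volume K).toReal + t * S ≤
      (volume (toEuclideanLin T '' K + Metric.closedBall 0 t)).toReal

lemma one_add_pow_le {z : ℝ} (h0 : 0 ≤ z) (h1 : z ≤ 1) : ∀ m : ℕ,
    (1 + z) ^ m ≤ 1 + m * z + 4 ^ m * z ^ 2
  | 0 => by nlinarith
  | m + 1 => by
    have h := mul_le_mul_of_nonneg_right (one_add_pow_le h0 h1 m) (add_nonneg zero_le_one h0)
    rw [← pow_succ] at h
    have hm : (m : ℝ) ≤ 4 ^ m := by exact_mod_cast (Nat.lt_pow_self (by norm_num : 1 < 4)).le
    have h4 : (0 : ℝ) ≤ 4 ^ m * z ^ 2 * (1 - z) :=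
      mul_nonneg (by positivity) (sub_nonneg.2 h1)
    have h5 : (m : ℝ) * z ^ 2 ≤ 4 ^ m * z ^ 2 := mul_le_mul_of_nonneg_right hm (sq_nonneg z)
    have h6 : (0 : ℝ) ≤ 4 ^ m * z ^ 2 := by positivity
    rw [pow_succ (4 : ℝ)]
    push_cast
    nlinarith

lemma inner_stretch (U : Submodule ℝ (E n)) (a : ℝ) (x y : E n) :
    ⟪x, stretch U a y⟫ = ⟪stretch U a x, y⟫ := by
  simp [stretch, inner_add_left, inner_add_right, real_inner_smul_left, real_inner_smul_right,
    Submodule.inner_starProjection_left_eq_right]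

/-- Enlarging all facets by the lengths `r` gives at most the sum of the enlarged cones. -/
lemma volume_enlarged_le (v : Fin N → E n) (hn : 0 < n)
    (hb : Bornology.IsBounded (Poly v fun _ => 1)) {c : Fin N → ℝ} (hc : ∀ i, 0 < c i) :
    Bornology.IsBounded (Poly v c) ∧
      (volume (Poly v c)).toReal ≤ ∑ i, c i ^ n * coneVol v i := by
  have hN : 0 < N := by
    rcases Nat.eq_zero_or_pos N with rfl | h
    · have : Nonempty (Fin n) := ⟨⟨0, hn⟩⟩
      exact absurd (hb.subset (s := univ) fun x _ i => i.elim0)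
        (NormedSpace.unbounded_univ ℝ (E n))
    · exact h
  have : Nonempty (Fin N) := ⟨⟨0, hN⟩⟩
  have hsub : ∀ i, cone v i ⊆ Poly v fun _ => 1 := fun i x hx j => (hx.2 j).trans hx.1
  have hcov : Poly v c ⊆ ⋃ i, c i • cone v i := by
    intro x hx
    obtain ⟨i, hi⟩ := Finite.exists_max fun j => ⟪v j, x⟫
    refine mem_iUnion.2 ⟨i, ?_⟩
    rw [mem_smul_set_iff_inv_smul_mem₀ (hc i).ne']
    refine ⟨?_, fun j => ?_⟩
    · rw [real_inner_smul_right, inv_mul_le_one₀ (hc i)]
      exact hx i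
    · rw [real_inner_smul_right, real_inner_smul_right]
      exact mul_le_mul_of_nonneg_left (hi j) (inv_nonneg.2 (hc i).le)
  have hfin : ∀ i, Bornology.IsBounded (c i • cone v i) := fun i => (hb.subset (hsub i)).smul₀ (c i)
  refine ⟨(Bornology.isBounded_iUnion.2 hfin).subset hcov, ?_⟩
  refine (ENNReal.toReal_mono (ENNReal.sum_ne_top.2 fun i _ => (hfin i).measure_lt_top.ne)
    ((measure_mono hcov).trans (measure_iUnion_fintype_le _ _))).trans (le_of_eq ?_)
  rw [ENNReal.toReal_sum fun i _ => (hfin i).measure_lt_top.ne]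
  refine Finset.sum_congr rfl fun i _ => ?_
  rw [Measure.addHaar_smul_of_nonneg volume (hc i).le, finrank_euclideanSpace_fin,
    ENNReal.toReal_mul, ENNReal.toReal_ofReal (pow_nonneg (hc i).le n), coneVol]

lemma sum_coneVol_le' {v : Fin N → E n} (hv : Function.Injective v)
    (hb : Bornology.IsBounded (Poly v fun _ => 1)) :
    ∑ i, coneVol v i ≤ (volume (Poly v fun _ => 1)).toReal := by
  have hd : Pairwise (Function.onFun (AEDisjoint volume) (cone v)) := by
    intro i j hij
    have hne : (innerSL ℝ (v i - v j)).toLinearMap.ker ≠ ⊤ := by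
      intro h
      have h0 : v i - v j ∈ (innerSL ℝ (v i - v j)).toLinearMap.ker := by rw [h]; trivial
      rw [LinearMap.mem_ker, ContinuousLinearMap.coe_coe, innerSL_apply_apply, inner_self_eq_zero,
        sub_eq_zero] at h0
      exact hij (hv h0)
    refine measure_mono_null (fun x hx => ?_) (Measure.addHaar_submodule volume _ hne)
    rw [SetLike.mem_coe, LinearMap.mem_ker, ContinuousLinearMap.coe_coe, innerSL_apply_apply,
      inner_sub_left, sub_eq_zero]
    exact le_antisymm (hx.2.2 i) (hx.1.2 j)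
  have hsub : ∀ i, cone v i ⊆ Poly v fun _ => 1 := fun i x hx j => (hx.2 j).trans hx.1
  have hcl : ∀ i, IsClosed (cone v i) := fun i => by
    simp only [cone, ofPred_and, ofPred_forall]
    exact (isClosed_le (by fun_prop) continuous_const).inter
      (isClosed_iInter fun j => isClosed_le (by fun_prop) (by fun_prop))
  have hfin : ∀ i, volume (cone v i) ≠ ⊤ := fun i => (hb.subset (hsub i)).measure_lt_top.ne
  have h := measure_iUnion₀ hd fun i => (hcl i).measurableSet.nullMeasurableSet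
  rw [tsum_fintype] at h
  simp only [coneVol, ← ENNReal.toReal_sum fun i _ => hfin i, ← h]
  exact ENNReal.toReal_mono hb.measure_lt_top.ne (measure_mono (iUnion_subset hsub))

/-- A polytope with bounded normals and volume bounded below is seen from every direction. -/
lemma direction_seen (hn : 2 ≤ n) {w : Fin N → E n} (hw : Function.Injective w)
    (hb : Bornology.IsBounded (Poly w fun _ => 1)) {k A η : ℝ} (hk0 : 0 < k) (hA : 0 < A)
    (hPlow : k / 2 ^ n ≤ (volume (Poly w fun _ => 1)).toReal)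
    (hsumw : ∑ i, coneVol w i * ‖w i‖ ≤ A)
    (hη : η = kappa n * (k / 2 ^ n) ^ (n - 1) / (2 * A) ^ n) {u : E n} (hu : ‖u‖ = 1) :
    η * A ≤ ∑ i, coneVol w i * |⟪w i, u⟫| := by
  have hn0 : 0 < n := by omega
  have hk : 0 < kappa n :=
    ENNReal.toReal_pos (Metric.measure_ball_pos volume _ one_pos).ne' measure_ball_lt_top.ne
  have hηpos : 0 < η := by rw [hη]; positivity
  have hV0 : ∀ i, 0 ≤ coneVol w i := fun i => ENNReal.toReal_nonneg
  set P := Poly w fun _ => 1
  set U := (ℝ ∙ u)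
  set L := stretch U η⁻¹ '' Metric.closedBall (0 : E n) η
  have hu0 : u ≠ 0 := fun h => by simp [h] at hu
  have hL : L ⊆ Poly w fun i => |⟪w i, u⟫| + η * ‖w i‖ := by
    rintro _ ⟨x, hx, rfl⟩ i
    rw [inner_stretch]
    have hdec : stretch U η⁻¹ (w i) = w i + (η⁻¹ - 1) • (⟪u, w i⟫ • u) := by
      simp [stretch, U, Submodule.starProjection_unit_singleton ℝ hu]
    have hxn := mem_closedBall_zero_iff.1 hx
    have hsplit : w i + (η⁻¹ - 1) • (⟪u, w i⟫ • u) =
        η⁻¹ • (⟪u, w i⟫ • u) + (w i - ⟪u, w i⟫ • u) := by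
      rw [sub_smul, one_smul]; abel
    have h1 : ‖w i - ⟪u, w i⟫ • u‖ ≤ ‖w i‖ := by
      refine le_of_pow_le_pow_left₀ two_ne_zero (norm_nonneg _) ?_
      rw [norm_sub_sq_real, real_inner_smul_right, norm_smul, mul_pow, hu, Real.norm_eq_abs,
        sq_abs, real_inner_comm (w i) u]
      nlinarith [sq_nonneg ⟪u, w i⟫]
    refine (real_inner_le_norm _ _).trans ?_
    rw [hdec, hsplit]
    refine (mul_le_mul (norm_add_le _ _) hxn (norm_nonneg _) (by positivity)).trans ?_
    rw [real_inner_comm (w i) u] at h1 ⊢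
    rw [norm_smul, norm_smul, hu, mul_one, Real.norm_eq_abs, Real.norm_eq_abs,
      abs_of_pos (inv_pos.2 hηpos), add_mul]
    refine add_le_add (le_of_eq (by field_simp)) ?_
    rw [mul_comm]; exact mul_le_mul_of_nonneg_left h1 hηpos.le
  have h := minkowskiFirst n N w (fun i => |⟪w i, u⟫| + η * ‖w i‖) L hn0 hw hb
    (fun i => by positivity)
    ((isCompact_closedBall _ _).image (LinearMap.continuous_of_finiteDimensional _))
    ((convex_closedBall _ _).linear_image _) ⟨0, by simp [hηpos.le], map_zero _⟩ hL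
  have hvol : (volume L).toReal = η ^ (n - 1) * kappa n := by
    rw [Measure.addHaar_image_linearMap, det_stretch, finrank_span_singleton hu0, pow_one,
      ENNReal.toReal_mul, volume_closedBall_toReal _ hηpos.le,
      ENNReal.toReal_ofReal (abs_nonneg _), abs_of_pos (inv_pos.2 hηpos)]
    conv_lhs => rw [← Nat.sub_add_cancel (show 1 ≤ n by omega), pow_succ]
    rw [Nat.sub_add_cancel (show 1 ≤ n by omega)]
    field_simp
  have hpow : (2 * (η * A)) ^ n ≤ (∑ i, coneVol w i * (|⟪w i, u⟫| + η * ‖w i‖)) ^ n := by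
    refine le_trans ?_ h
    rw [hvol]
    have hη' : η ^ n = η ^ (n - 1) * η := by rw [← pow_succ, Nat.sub_add_cancel (by omega)]
    calc (2 * (η * A)) ^ n = η ^ (n - 1) * (η * (2 * A) ^ n) := by
          rw [show 2 * (η * A) = η * (2 * A) by ring, mul_pow, hη']; ring
      _ = η ^ (n - 1) * (kappa n * (k / 2 ^ n) ^ (n - 1)) := by
          rw [hη, div_mul_cancel₀ _ (by positivity)]
      _ ≤ η ^ (n - 1) * kappa n * (volume P).toReal ^ (n - 1) := by
          rw [mul_assoc]; gcongr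
  have := (pow_le_pow_iff_left₀ (by positivity)
    (Finset.sum_nonneg fun i _ => mul_nonneg (hV0 i) (by positivity)) hn0.ne').1 hpow
  simp only [mul_add, Finset.sum_add_distrib, mul_left_comm _ η, ← Finset.mul_sum] at this
  nlinarith [mul_le_mul_of_nonneg_left hsumw hηpos.le]

/-- If every direction is seen, a position of small surface area moves no normal far. -/
lemma position_small {w : Fin N → E n} {T : Matrix (Fin n) (Fin n) ℝ} {B R W : ℝ} (hB : 0 < B)
    (hR : 0 ≤ R) (hW : 0 ≤ W)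
    (hseen : ∀ u : E n, ‖u‖ = 1 → B ≤ ∑ i, coneVol w i * |⟪w i, u⟫|)
    (hle : ∑ i, coneVol w i * ‖toEuclideanLin T (w i)‖ ≤ R) (hwW : ∀ i, ‖w i‖ ≤ W) (i : Fin N) :
    ‖toEuclideanLin T (w i)‖ ≤ R / B * W := by
  set y := fun i => toEuclideanLin T (w i)
  set s := ∑ i, coneVol w i * ‖y i‖
  have hV0 : ∀ i, 0 ≤ coneVol w i := fun i => ENNReal.toReal_nonneg
  have hTt : ∀ e : E n, ‖toEuclideanLin Tᵀ e‖ ≤ R / B * ‖e‖ := by
    intro e
    set z := toEuclideanLin Tᵀ e
    rcases eq_or_ne z 0 with hz | hz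
    · rw [hz, norm_zero]; positivity
    have hz0 : 0 < ‖z‖ := norm_pos_iff.2 hz
    have h1 := hseen (‖z‖⁻¹ • z) (by rw [norm_smul, norm_inv, norm_norm, inv_mul_cancel₀ hz0.ne'])
    have h2 : ∑ i, coneVol w i * |⟪w i, ‖z‖⁻¹ • z⟫| ≤ s * ‖e‖ / ‖z‖ := by
      rw [Finset.sum_mul, Finset.sum_div]
      refine Finset.sum_le_sum fun i _ => ?_
      rw [real_inner_smul_right, inner_toEuclideanLin_transpose, abs_mul,
        abs_of_pos (inv_pos.2 hz0), mul_assoc, mul_div_assoc, inv_mul_eq_div]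
      gcongr
      · exact hV0 i
      · exact abs_real_inner_le_norm _ _
    have h3 := h1.trans (h2.trans (div_le_div_of_nonneg_right
      (mul_le_mul_of_nonneg_right hle (norm_nonneg e)) hz0.le))
    rw [le_div_iff₀ hz0] at h3
    rw [div_mul_eq_mul_div, le_div_iff₀ hB]
    linarith
  rcases eq_or_ne ‖y i‖ 0 with h0 | h0
  · change ‖y i‖ ≤ _
    rw [h0]; positivity
  refine le_of_mul_le_mul_right ?_ (lt_of_le_of_ne (norm_nonneg _) (Ne.symm h0))
  rw [← sq, ← real_inner_self_eq_norm_sq]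
  calc ⟪y i, y i⟫ = ⟪w i, toEuclideanLin Tᵀ (y i)⟫ := by rw [inner_toEuclideanLin_transpose]
    _ ≤ ‖w i‖ * ‖toEuclideanLin Tᵀ (y i)‖ := real_inner_le_norm _ _
    _ ≤ W * (R / B * ‖y i‖) := mul_le_mul (hwW i) (hTt _) (norm_nonneg _) hW
    _ = _ := by ring

/-- The secant bound on the body bounds the enlarged cones of the inscribed polytope. -/
lemma secant_bound (hn : 0 < n) {w : Fin N → E n} {K : Set (E n)}
    (hK : IsCompact K) (hPK : (Poly w fun _ => 1) ⊆ K) {δ : ℝ}
    (hKP : K ⊆ (1 + δ) • Poly w fun _ => 1) (hδ : 0 < δ) {T : Matrix (Fin n) (Fin n) ℝ}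
    (hT : |T.det| = 1) {S₀ S₁ : ℝ} (hsurf : SurfaceAtLeast K S₀) {t Y : ℝ} (ht : 0 < t)
    (hyY : ∀ i, ‖toEuclideanLin T (w i)‖ ≤ Y) (htY : t * Y ≤ 1)
    (hsumV : ∑ i, coneVol w i ≤ (volume K).toReal)
    (hns : (n : ℝ) * ∑ i, coneVol w i * ‖toEuclideanLin T (w i)‖ ≤ S₁) :
    (volume K).toReal + t * S₀ ≤ (1 + δ) ^ n *
      ((volume K).toReal + t * S₁ + 4 ^ n * (volume K).toReal * (t * Y) ^ 2) := by
  set k := (volume K).toReal
  set y := fun i => toEuclideanLin T (w i)
  have hV0 : ∀ i, 0 ≤ coneVol w i := fun i => ENNReal.toReal_nonneg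
  have hb : Bornology.IsBounded (Poly w fun _ => 1) := hK.isBounded.subset hPK
  set B := toEuclideanLin Tᵀ '' Metric.closedBall (0 : E n) t
  have hdet : (Tᵀ).det ≠ 0 := by
    rw [det_transpose]; intro h; rw [h, abs_zero] at hT; exact zero_ne_one hT
  have hinv : |((Tᵀ)⁻¹).det| = 1 := by
    rw [Matrix.det_nonsing_inv, Ring.inverse_eq_inv', abs_inv, det_transpose, hT, inv_one]
  have hsec : k + t * S₀ ≤ (volume (K + B)).toReal := by
    refine (hsurf _ hinv t ht).trans (le_of_eq ?_)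
    congr 1
    rw [← volume_image_toEuclideanLin (T := Tᵀ) (by rwa [det_transpose]), Set.image_add,
      Set.image_image]
    simp only [toEuclideanLin_mul_apply, Matrix.mul_nonsing_inv _ (isUnit_iff_ne_zero.2 hdet)]
    simp [B, Matrix.toLpLin_one]
  have hKB : K + B ⊆ (1 + δ) • Poly w fun i => 1 + t * ‖y i‖ := by
    rintro _ ⟨x, hx, _, ⟨b, hb', rfl⟩, rfl⟩
    obtain ⟨p, hp, rfl⟩ := hKP hx
    refine ⟨p + (1 + δ)⁻¹ • toEuclideanLin Tᵀ b, fun i => ?_, ?_⟩
    · rw [inner_add_right, real_inner_smul_right, inner_toEuclideanLin_transpose]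
      refine add_le_add (hp i) ?_
      have h1 : ⟪y i, b⟫ ≤ t * ‖y i‖ := (real_inner_le_norm _ _).trans (by
        rw [mul_comm]
        exact mul_le_mul_of_nonneg_right (mem_closedBall_zero_iff.1 hb') (norm_nonneg _))
      exact (mul_le_mul_of_nonneg_left h1 (by positivity)).trans
        (mul_le_of_le_one_left (by positivity) (inv_le_one_of_one_le₀ (by linarith)))
    · show (1 + δ) • _ = _
      rw [smul_add, smul_inv_smul₀ (by linarith : (1 + δ) ≠ 0)]
  obtain ⟨hbP, hvolP⟩ :=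
    volume_enlarged_le w hn hb (c := fun i => 1 + t * ‖y i‖) (fun i => by positivity)
  have hsum2 : ∑ i, (1 + t * ‖y i‖) ^ n * coneVol w i ≤
      k + t * S₁ + 4 ^ n * k * (t * Y) ^ 2 := by
    have hterm : ∀ i, (1 + t * ‖y i‖) ^ n * coneVol w i ≤
        coneVol w i + t * ((n : ℝ) * (coneVol w i * ‖y i‖)) + 4 ^ n * (t * Y) ^ 2 * coneVol w i := by
      intro i
      have hle := mul_le_mul_of_nonneg_left (hyY i) ht.le
      have h := (one_add_pow_le (by positivity) (hle.trans htY) n).trans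
        (add_le_add le_rfl (mul_le_mul_of_nonneg_left (pow_le_pow_left₀ (by positivity) hle 2)
          (by positivity)))
      refine (mul_le_mul_of_nonneg_right h (hV0 i)).trans (le_of_eq ?_)
      ring
    refine (Finset.sum_le_sum fun i _ => hterm i).trans ?_
    rw [Finset.sum_add_distrib, Finset.sum_add_distrib, ← Finset.mul_sum, ← Finset.mul_sum,
      ← Finset.mul_sum]
    have h1 := mul_le_mul_of_nonneg_left hns ht.le
    have h2 := mul_le_mul_of_nonneg_left hsumV (show (0 : ℝ) ≤ 4 ^ n * (t * Y) ^ 2 by positivity)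
    linarith
  have hfin := hsec.trans (ENNReal.toReal_mono (hbP.smul₀ (1 + δ)).measure_lt_top.ne
    (measure_mono hKB))
  rw [Measure.addHaar_smul_of_nonneg volume (by linarith), finrank_euclideanSpace_fin,
    ENNReal.toReal_mul, ENNReal.toReal_ofReal (by positivity)] at hfin
  exact hfin.trans (mul_le_mul_of_nonneg_left (hvolP.trans hsum2) (by positivity))

/-- For a fixed body there is one bound on the positions of small surface area, and so the secant
bound passes to inscribed polytopes close to the body. -/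
theorem surface_transfer (hn : 2 ≤ n) {K : Set (E n)} (hK : IsCompact K)
    (h0 : (0 : E n) ∈ interior K) {S₀ S₁ : ℝ} (hS₁ : 0 < S₁) (hlt : S₁ < S₀)
    (hsurf : SurfaceAtLeast K S₀) :
    ∀ᶠ δ in 𝓝[>] (0 : ℝ), ∀ (M : ℕ) (w : Fin M → E n), Function.Injective w →
      (Poly w fun _ => 1) ⊆ K → K ⊆ (1 + δ) • (Poly w fun _ => 1) →
      ∀ (T : Matrix (Fin n) (Fin n) ℝ), |T.det| = 1 →
        S₁ / n ≤ ∑ i, coneVol w i * ‖toEuclideanLin T (w i)‖ := by
  have hn0 : 0 < n := by omega
  have hnR : (0 : ℝ) < n := by exact_mod_cast hn0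
  obtain ⟨ρ, hρ, hball⟩ := Metric.isOpen_iff.1 isOpen_interior 0 h0
  have hk : 0 < kappa n :=
    ENNReal.toReal_pos (Metric.measure_ball_pos volume _ one_pos).ne' measure_ball_lt_top.ne
  set k := (volume K).toReal with hkdef
  have hkpos : 0 < k := ENNReal.toReal_pos
    (Measure.measure_pos_of_nonempty_interior volume ⟨0, h0⟩).ne' hK.measure_lt_top.ne
  -- constants of the bound on positions
  set A := k * (4 / ρ) with hA
  have hApos : 0 < A := by positivity
  set η := kappa n * (k / 2 ^ n) ^ (n - 1) / (2 * A) ^ n with hη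
  have hηpos : 0 < η := by positivity
  set Cop := S₁ / n / (η * A) with hCop
  have hCoppos : 0 < Cop := by positivity
  set Y := Cop * (4 / ρ) with hY
  have hYpos : 0 < Y := by positivity
  set t := min (1 / Y) ((S₀ - S₁) / (2 * (4 ^ n * k * Y ^ 2))) with ht
  have htpos : 0 < t := lt_min (by positivity) (div_pos (by linarith) (by positivity))
  have hev : ∀ᶠ δ in 𝓝[>] (0 : ℝ),
      δ ≤ 1 ∧ ((1 + δ) ^ n - 1) * (k + t * S₁ + 4 ^ n * k * (t * Y) ^ 2) < t * (S₀ - S₁) / 2 := by
    have h1 : Tendsto (fun δ : ℝ => ((1 + δ) ^ n - 1) * (k + t * S₁ + 4 ^ n * k * (t * Y) ^ 2))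
        (𝓝[>] (0 : ℝ)) (𝓝 0) := by
      refine (Tendsto.mono_left ?_ nhdsWithin_le_nhds)
      refine Continuous.tendsto' (by fun_prop) 0 0 ?_
      simp
    refine ((eventually_le_nhds zero_lt_one).filter_mono nhdsWithin_le_nhds).and ?_
    exact h1.eventually (eventually_lt_nhds (by nlinarith))
  filter_upwards [hev, self_mem_nhdsWithin] with δ hδ hδ0
  obtain ⟨hδ1, hδsmall⟩ := hδ
  replace hδ0 : 0 < δ := hδ0
  intro M w hw hPK hKP T hT
  by_contra hcon
  push Not at hcon
  set P := Poly w fun _ => 1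
  set y := fun i => toEuclideanLin T (w i) with hy
  set s := ∑ i, coneVol w i * ‖y i‖
  have hV0 : ∀ i, 0 ≤ coneVol w i := fun i => ENNReal.toReal_nonneg
  have hb : Bornology.IsBounded P := hK.isBounded.subset hPK
  have hPk : (volume P).toReal ≤ k := ENNReal.toReal_mono hK.measure_lt_top.ne (measure_mono hPK)
  have hsumV : ∑ i, coneVol w i ≤ k := (sum_coneVol_le' hw hb).trans hPk
  have hPlow : k / 2 ^ n ≤ (volume P).toReal := by
    have h := ENNReal.toReal_mono (hb.smul₀ (1 + δ)).measure_lt_top.ne (measure_mono (μ := volume) hKP)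
    rw [Measure.addHaar_smul_of_nonneg volume (by linarith), finrank_euclideanSpace_fin,
      ENNReal.toReal_mul, ENNReal.toReal_ofReal (by positivity)] at h
    rw [div_le_iff₀ (by positivity), mul_comm]
    refine h.trans (mul_le_mul_of_nonneg_right ?_ ENNReal.toReal_nonneg)
    exact pow_le_pow_left₀ (by linarith) (by linarith) n
  -- the normals are bounded
  have hw4 : ∀ i, ‖w i‖ ≤ 4 / ρ := by
    intro i
    rcases eq_or_ne (w i) 0 with h | h
    · rw [h, norm_zero]; positivity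
    have hn' : 0 < ‖w i‖ := norm_pos_iff.2 h
    have hmem : (ρ / 2 / ‖w i‖) • w i ∈ Metric.ball (0 : E n) ρ := by
      rw [mem_ball_zero_iff, norm_smul, Real.norm_of_nonneg (by positivity),
        div_mul_cancel₀ _ hn'.ne']
      linarith
    obtain ⟨z, hz, hzeq⟩ := hKP (interior_subset (hball hmem))
    have h1 : (1 + δ) * ⟪w i, z⟫ = ρ / 2 * ‖w i‖ := by
      have := congrArg (fun q => ⟪w i, q⟫) hzeq
      simp only [real_inner_smul_right, real_inner_self_eq_norm_sq] at this
      rw [this]; field_simp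
    have h2 : ⟪w i, z⟫ ≤ 1 := hz i
    rw [le_div_iff₀ hρ]
    nlinarith
  have hsumw : ∑ i, coneVol w i * ‖w i‖ ≤ A := by
    refine (Finset.sum_le_sum fun i _ => mul_le_mul_of_nonneg_left (hw4 i) (hV0 i)).trans ?_
    rw [← Finset.sum_mul]
    exact mul_le_mul_of_nonneg_right hsumV (by positivity)
  -- every direction is seen
  have hseen : ∀ u : E n, ‖u‖ = 1 → η * A ≤ ∑ i, coneVol w i * |⟪w i, u⟫| := fun u hu =>
    direction_seen hn hw hb hkpos hApos hPlow hsumw hη hu
  -- hence the position is bounded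
  have hyY : ∀ i, ‖y i‖ ≤ Y := fun i => by
    rw [hY, hCop]
    exact position_small (by positivity) (by positivity) (by positivity) hseen hcon.le hw4 i
  -- the secant
  have hns : (n : ℝ) * s ≤ S₁ := by
    have := hcon.le
    rw [le_div_iff₀ hnR] at this
    linarith
  have htY : t * Y ≤ 1 :=
    (mul_le_mul_of_nonneg_right (min_le_left _ _) hYpos.le).trans_eq (one_div_mul_cancel hYpos.ne')
  have hbound := secant_bound hn0 hK hPK hKP hδ0 hT hsurf htpos hyY htY hsumV hns
  have ht2 : 4 ^ n * k * (t * Y) ^ 2 ≤ t * ((S₀ - S₁) / 2) := by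
    have h1 : t * (2 * (4 ^ n * k * Y ^ 2)) ≤ S₀ - S₁ :=
      (le_div_iff₀ (by positivity)).1 (min_le_right _ _)
    have h2 := mul_le_mul_of_nonneg_left h1 htpos.le
    linarith [show t * (t * (2 * (4 ^ n * k * Y ^ 2))) = 2 * (4 ^ n * k * (t * Y) ^ 2) by ring]
  linarith

/-- Either the surface area is large or the entropy has a linear slack. -/
lemma balance {n : ℕ} (hn : 1 ≤ n) {A ε L Er M η g s : ℝ} (hA : 0 < A) (hε : 0 < ε) (hL : 0 ≤ L)
    (hLn : L ≤ n) (hM0 : 0 ≤ M) (hM1 : M ≤ 1) (hη : 0 < η) (hη2 : η ≤ 1 / 2)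
    (hlog : η * 2 ≤ Real.log (1 + ε / 2))
    (key : (n : ℝ) / 2 + g + 2 ≤ (L - Er) / 2 + n * η ^ 2 / 2)
    (hsurf : A * (1 + ε / 2) ^ n ≤ s ^ n) (hmink : A / 4 ≤ (s * M) ^ n) :
    A * Real.exp ((n : ℝ) / 2 + g) ≤ s ^ n * Real.exp ((L * M ^ 2 - Er) / 2) := by
  have hnR : (0 : ℝ) ≤ n := Nat.cast_nonneg n
  rcases le_or_gt (1 - η) M with hcase | hcase
  · -- the surface area wins
    refine le_trans ?_ (mul_le_mul_of_nonneg_right hsurf (Real.exp_pos _).le)
    rw [mul_assoc]
    refine mul_le_mul_of_nonneg_left ?_ hA.le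
    have he : (1 + ε / 2) ^ n = Real.exp ((n : ℝ) * Real.log (1 + ε / 2)) := by
      rw [Real.exp_nat_mul, Real.exp_log (by linarith)]
    rw [he, ← Real.exp_add]
    refine Real.exp_le_exp.2 ?_
    have h0 : (1 - η) ^ 2 ≤ M ^ 2 := pow_le_pow_left₀ (by linarith) hcase 2
    have h1 : 1 - 2 * η ≤ M ^ 2 := le_trans (by nlinarith) h0
    have h2 : L * (1 - 2 * η) ≤ L * M ^ 2 := mul_le_mul_of_nonneg_left h1 hL
    have h4 : L * η ≤ n * η := mul_le_mul_of_nonneg_right hLn hη.le
    have h5 : (n : ℝ) * (η * 2) ≤ n * Real.log (1 + ε / 2) := mul_le_mul_of_nonneg_left hlog hnR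
    have h6 : (n : ℝ) * η ^ 2 ≤ n * η := mul_le_mul_of_nonneg_left (by nlinarith) hnR
    have h7 : 0 ≤ (n : ℝ) * η ^ 2 := mul_nonneg hnR (sq_nonneg η)
    linarith
  · -- the entropy wins
    have hMn : 0 < M ^ n := by
      rcases hM0.eq_or_lt with h | h
      · exfalso
        rw [← h, mul_zero, zero_pow (by omega)] at hmink
        linarith
      · exact pow_pos h n
    rw [mul_pow] at hmink
    have hMe : M ≤ Real.exp (M - 1) := by linarith [Real.add_one_le_exp (M - 1)]
    have h4 : (4 : ℝ) ≤ Real.exp 2 := by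
      rw [show (2 : ℝ) = 1 + 1 by norm_num, Real.exp_add]
      nlinarith [Real.exp_one_gt_d9]
    have h2 : M ^ n * (4 * Real.exp ((n : ℝ) / 2 + g)) ≤ Real.exp ((L * M ^ 2 - Er) / 2) := by
      refine (mul_le_mul (pow_le_pow_left₀ hM0 hMe n)
        (mul_le_mul_of_nonneg_right h4 (Real.exp_pos _).le) (by positivity) (by positivity)).trans ?_
      rw [← Real.exp_nat_mul, ← Real.exp_add, ← Real.exp_add]
      refine Real.exp_le_exp.2 ?_
      have e1 : (n : ℝ) * η ^ 2 ≤ n * (1 - M) ^ 2 :=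
        mul_le_mul_of_nonneg_left (pow_le_pow_left₀ hη.le (by linarith) 2) hnR
      have hM2 : M ^ 2 ≤ 1 := pow_le_one₀ hM0 hM1
      have e2 : L * (1 - M ^ 2) ≤ n * (1 - M ^ 2) :=
        mul_le_mul_of_nonneg_right hLn (by linarith)
      linarith
    have hsn : 0 ≤ s ^ n := nonneg_of_mul_nonneg_left (by linarith) hMn
    calc A * Real.exp ((n : ℝ) / 2 + g) = A / 4 * (4 * Real.exp ((n : ℝ) / 2 + g)) := by ring
      _ ≤ s ^ n * M ^ n * (4 * Real.exp ((n : ℝ) / 2 + g)) :=
          mul_le_mul_of_nonneg_right hmink (by positivity)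
      _ = s ^ n * (M ^ n * (4 * Real.exp ((n : ℝ) / 2 + g))) := by ring
      _ ≤ _ := mul_le_mul_of_nonneg_left h2 hsn

/-- Petty's inequality with the margin `exp g`, at a fixed dimension. -/
theorem exact_petty_at {n : ℕ} (hPos : ExactPosition) (hZ : ZonoEntropy) (hG : GoodSet)
    (hS : StepBound) (hn4 : 4 ≤ n) {ε η g : ℝ} (hε : 0 < ε) (hη0 : 0 < η) (hη2 : η ≤ 1 / 2)
    (hlog : η * 2 ≤ Real.log (1 + ε / 2)) (hbad : badShare n (√(n : ℝ))⁻¹ ≤ 1 / 2)
    (key : (n : ℝ) / 2 + g + 2 ≤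
      (logRatio n - totalErr n (√(n : ℝ))⁻¹) / 2 + n * η ^ 2 / 2)
    {K : Set (E n)} (hK : IsCompact K) (hKc : Convex ℝ K) (hi : (interior K).Nonempty)
    (hsurf : SurfaceAtLeast K
      ((1 + ε) * (n * (kappa n * (volume K).toReal ^ (n - 1)) ^ ((n : ℝ)⁻¹)))) :
    Real.exp g * (kappa (n - 1) ^ n * kappa n ^ ((2 : ℤ) - n)) *
      (volume K).toReal ^ (n - 1) ≤ (volume (projBody K)).toReal := by
  set τ := (√(n : ℝ))⁻¹
  have hnR : (4 : ℝ) ≤ n := by exact_mod_cast hn4
  have hτ : 0 < τ := inv_pos.2 (Real.sqrt_pos.2 (by linarith))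
  have hτ1 : τ ≤ 1 := inv_le_one_of_one_le₀ (Real.one_le_sqrt.2 (by linarith))
  have hk : 0 < kappa n :=
    ENNReal.toReal_pos (Metric.measure_ball_pos volume _ one_pos).ne' measure_ball_lt_top.ne
  set Lam := logRatio n
  set Er := totalErr n τ
  -- move the origin inside
  obtain ⟨x₀, hx₀⟩ := hi
  set K' := (fun y => x₀ + y) ⁻¹' K with hK'
  have himg : (fun y => x₀ + y) '' K' = K := Set.image_preimage_eq K (add_left_surjective x₀)
  have hK'c : IsCompact K' := (Homeomorph.addLeft x₀).isCompact_preimage.2 hK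
  have hK'x : Convex ℝ K' := by simpa [hK', add_comm] using hKc.translate_preimage_left x₀
  have h0 : (0 : E n) ∈ interior K' := by
    have h : interior K' = (fun y => x₀ + y) ⁻¹' interior K :=
      ((Homeomorph.addLeft x₀).preimage_interior K).symm
    rw [h]; simpa using hx₀
  have hvolK : (volume K').toReal = (volume K).toReal := by rw [hK', measure_preimage_add]
  set k := (volume K).toReal
  have hkpos : 0 < k := ENNReal.toReal_pos
    (Measure.measure_pos_of_nonempty_interior volume ⟨x₀, hx₀⟩).ne' hK.measure_lt_top.ne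
  set r₀ := (kappa n * k ^ (n - 1)) ^ ((n : ℝ)⁻¹)
  have hr₀ : r₀ ^ n = kappa n * k ^ (n - 1) := Real.rpow_inv_natCast_pow (by positivity) (by omega)
  have hr₀pos : 0 < r₀ := Real.rpow_pos_of_pos (by positivity) _
  have hsurf' : SurfaceAtLeast K' ((1 + ε) * (n * r₀)) := by
    intro T hT t ht
    have hadd : toEuclideanLin T '' K + Metric.closedBall (0 : E n) t =
        (fun z => toEuclideanLin T x₀ + z) '' (toEuclideanLin T '' K' + Metric.closedBall 0 t) := by
      rw [← himg, Set.image_image]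
      simp only [map_add]
      rw [← Set.image_image (fun z => toEuclideanLin T x₀ + z) (fun z => toEuclideanLin T z) K']
      simp only [← singleton_add, add_assoc]
    have h := hsurf T hT t ht
    rw [hadd, Set.image_add_left, measure_preimage_add] at h
    rwa [hvolK]
  have hT1 := surface_transfer (by omega : 2 ≤ n) hK'c h0
    (S₁ := (1 + ε / 2) * (n * r₀)) (by positivity)
    (mul_lt_mul_of_pos_right (by linarith) (by positivity)) hsurf'
  have hpow : ∀ᶠ δ in 𝓝[>] (0 : ℝ), ((1 + δ) ^ n) ^ (n - 1) ≤ 2 := by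
    have h1 : Tendsto (fun δ : ℝ => ((1 + δ) ^ n) ^ (n - 1)) (𝓝[>] (0 : ℝ)) (𝓝 1) :=
      (Continuous.tendsto' (by fun_prop) 0 1 (by simp)).mono_left nhdsWithin_le_nhds
    exact h1.eventually (eventually_le_nhds one_lt_two)
  obtain ⟨δ, hδT, hδpow, hδ0⟩ := (hT1.and (hpow.and self_mem_nhdsWithin)).exists
  replace hδ0 : 0 < δ := hδ0
  obtain ⟨M₁, v, hv, -, hKv, hvK⟩ := exists_polytope (N := 1) hK'c hK'x h0 (fun _ => ⊤)
    (fun _ => K') (iInter_const _).symm (fun _ => hK'c.isClosed) (fun _ => hK'x)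
    (fun _ x hx y hy => by
      rw [Submodule.top_orthogonal_eq_bot, Submodule.mem_bot] at hy
      simpa [hy] using hx) hδ0
  set c := 1 + δ
  have hc : 0 < c := by positivity
  set w := fun i => c • v i with hw
  have hsubK : Poly w (fun _ => 1) ⊆ K' := by
    intro x hx
    have hcx : c • x ∈ Poly v fun _ => 1 := fun i => by
      have := hx i
      rwa [hw, real_inner_smul_left, ← real_inner_smul_right] at this
    exact (smul_mem_smul_set_iff₀ hc.ne' K' x).1 (hvK hcx)
  have hKsub : K' ⊆ c • Poly w fun _ => 1 := by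
    intro x hx
    refine ⟨c⁻¹ • x, fun i => ?_, smul_inv_smul₀ hc.ne' x⟩
    rw [hw, real_inner_smul_left, real_inner_smul_right, ← mul_assoc, mul_inv_cancel₀ hc.ne',
      one_mul]
    exact hKv x hx i
  have hwinj : Function.Injective w := fun a b h => hv (smul_right_injective (E n) hc.ne' h)
  have hb : Bornology.IsBounded (Poly w fun _ => 1) := hK'c.isBounded.subset hsubK
  obtain ⟨T, s, M, hT, hs, hsum, hM0, hM1, hmink, hlow⟩ :=
    polytope_core hPos hZ hG hS (by omega : 2 ≤ n) w hwinj hb hτ hτ1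
  have hsurfP := hδT M₁ w hwinj hsubK hKsub T hT
  rw [hsum, div_le_iff₀ (by linarith)] at hsurfP
  have hs1 : (1 + ε / 2) * r₀ ≤ s :=
    le_of_mul_le_mul_left (by linarith) (show (0 : ℝ) < n by linarith)
  have hPlow : k ^ (n - 1) / 2 ≤ (volume (Poly w fun _ => 1)).toReal ^ (n - 1) := by
    have h := ENNReal.toReal_mono (hb.smul₀ c).measure_lt_top.ne (measure_mono (μ := volume) hKsub)
    rw [Measure.addHaar_smul_of_nonneg volume hc.le, finrank_euclideanSpace_fin,
      ENNReal.toReal_mul, ENNReal.toReal_ofReal (by positivity), hvolK] at h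
    have h2 := pow_le_pow_left₀ hkpos.le h (n - 1)
    rw [mul_pow] at h2
    rw [div_le_iff₀ two_pos, mul_comm]
    exact h2.trans (mul_le_mul_of_nonneg_right hδpow (by positivity))
  have hgoal : kappa n * k ^ (n - 1) * Real.exp ((n : ℝ) / 2 + g) ≤
      (volume (projBody K)).toReal := by
    refine le_trans ?_ (hlow.trans (ENNReal.toReal_mono (isBounded_projBody K).measure_lt_top.ne
      (measure_mono ?_)))
    swap
    · rw [← himg, projBody_vadd]; exact projBody_mono hK'c hsubK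
    refine balance (by omega : 1 ≤ n) (by positivity : (0 : ℝ) < kappa n * k ^ (n - 1)) hε
      (logRatio_nonneg n) (logRatio_le n) hM0 hM1 hη0 hη2
      hlog key ?_ ?_
    · have := pow_le_pow_left₀ (by positivity) hs1 n
      rw [mul_pow, hr₀] at this; linarith
    · refine le_trans ?_ hmink
      rw [show kappa n * k ^ (n - 1) / 4 = kappa n * (1 / 2) * (k ^ (n - 1) / 2) by ring]
      exact mul_le_mul (mul_le_mul_of_nonneg_left (by linarith) hk.le) hPlow (by positivity)
        (mul_nonneg hk.le (by linarith))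
  refine le_trans ?_ hgoal
  have hz : kappa n ^ ((2 : ℤ) - n) = kappa n / kappa n ^ (n - 1) := by
    rw [← zpow_natCast (kappa n) (n - 1), Nat.cast_sub (by omega)]
    nth_rw 2 [← zpow_one (kappa n)]
    rw [← zpow_sub₀ hk.ne']
    congr 1
    push_cast
    ring
  have hball : kappa (n - 1) ^ n / kappa n ^ (n - 1) ≤ Real.exp ((n : ℝ) / 2) := by
    rw [div_le_iff₀ (pow_pos hk _)]
    refine ((ballConst n hn4).le).trans ?_
    rw [← Real.exp_half, ← Real.exp_nat_mul, mul_comm]
    rw [mul_one_div]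
    refine mul_le_mul_of_nonneg_right (half_le_self (Real.exp_pos _).le) (by positivity)
  rw [hz, Real.exp_add]
  calc Real.exp (g) * (kappa (n - 1) ^ n * (kappa n / kappa n ^ (n - 1))) * k ^ (n - 1)
      = kappa n * k ^ (n - 1) *
          ((kappa (n - 1) ^ n / kappa n ^ (n - 1)) * Real.exp (g)) := by ring
    _ ≤ _ := by gcongr

/-- Petty's inequality with an exponential margin for bodies whose surface area, in every
unimodular position, exceeds that of the ball of the same volume by a fixed factor. -/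
theorem exact_petty (hPos : ExactPosition) (hZ : ZonoEntropy) (hG : GoodSet) (hS : StepBound)
    {ε : ℝ} (hε : 0 < ε) :
    ∃ γ : ℝ, 0 < γ ∧ ∃ n₀ : ℕ, ∀ n, n₀ ≤ n → ∀ K : Set (E n), IsCompact K → Convex ℝ K →
      (interior K).Nonempty →
      SurfaceAtLeast K
        ((1 + ε) * (n * (kappa n * (volume K).toReal ^ (n - 1)) ^ ((n : ℝ)⁻¹))) →
      Real.exp (γ * n) * (kappa (n - 1) ^ n * kappa n ^ ((2 : ℤ) - n)) *
        (volume K).toReal ^ (n - 1) ≤ (volume (projBody K)).toReal := by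
  set η := min (1 / 2) (Real.log (1 + ε / 2) / 2) with hη
  have hlog : 0 < Real.log (1 + ε / 2) := Real.log_pos (by linarith)
  have hη0 : 0 < η := lt_min (by norm_num) (by linarith)
  have hη2 : η ≤ 1 / 2 := min_le_left _ _
  set γ := η ^ 2 / 4 with hγ
  have hγ0 : 0 < γ := by positivity
  obtain ⟨n₁, hn₁⟩ := eventually_atTop.1 (eventually_small (ε := γ / 2) (by positivity))
  refine ⟨γ / 2, by positivity, max (max n₁ 4) (⌈2 / γ⌉₊), fun n hn K hK hKc hi hsurf => ?_⟩
  have hn4 : 4 ≤ n := le_trans (le_max_right n₁ 4) (le_trans (le_max_left _ _) hn)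
  have hγn : 2 ≤ γ * n := by
    have h1 : 2 / γ ≤ n :=
      (Nat.le_ceil _).trans (by exact_mod_cast le_trans (le_max_right _ _) hn)
    rw [div_le_iff₀ hγ0] at h1; linarith
  obtain ⟨hbad, herr⟩ := hn₁ n (le_trans (le_max_left n₁ 4) (le_trans (le_max_left _ _) hn))
  refine exact_petty_at hPos hZ hG hS hn4 hε hη0 hη2
    (by linarith [min_le_right (1 / 2 : ℝ) (Real.log (1 + ε / 2) / 2)]) hbad ?_ hK hKc hi hsurf
  have hlog' := logRatio_ge (n := n) (by omega)
  have h2 : (n : ℝ) * η ^ 2 / 2 = 2 * γ * n := by rw [hγ]; ring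
  linarith

/-- The losses are at most `n ^ (4 / 5)`. -/
theorem eventually_rate :
    ∀ᶠ n : ℕ in atTop, badShare n (√(n : ℝ))⁻¹ ≤ 1 / 2 ∧
      totalErr n (√(n : ℝ))⁻¹ + 1 + Real.log n ≤ (n : ℝ) ^ (4 / 5 : ℝ) := by
  have hg : Tendsto (fun y : ℝ => (1 + y) * (Real.exp (-(3 / 10) * y) +
      (y + 2) * (5 * Real.exp (-(1 / 20) * y))) + (1 + y) * Real.exp (-(4 / 5) * y))
      atTop (𝓝 0) := by
    have h := (((tendsto_poly_exp 0 (a := 3 / 10) (by norm_num)).add
      (tendsto_poly_exp 1 (a := 3 / 10) (by norm_num))).add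
      ((((tendsto_poly_exp 2 (a := 1 / 20) (by norm_num)).const_mul 5).add
      ((tendsto_poly_exp 1 (a := 1 / 20) (by norm_num)).const_mul 15)).add
      ((tendsto_poly_exp 0 (a := 1 / 20) (by norm_num)).const_mul 10))).add
      ((tendsto_poly_exp 0 (a := 4 / 5) (by norm_num)).add
        (tendsto_poly_exp 1 (a := 4 / 5) (by norm_num)))
    simp only [add_zero, mul_zero] at h
    refine h.congr fun y => ?_
    ring
  have e1 := ((hg.comp Real.tendsto_log_atTop).comp tendsto_natCast_atTop_atTop).eventually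
    (eventually_le_nhds (show (0 : ℝ) < 1 from one_pos))
  filter_upwards [e1, eventually_small one_pos, eventually_ge_atTop 1] with n h1 h2 hn
  refine ⟨h2.1, ?_⟩
  simp only [Function.comp] at h1
  have hnR : (1 : ℝ) ≤ n := by exact_mod_cast hn
  set x := √(n : ℝ)
  set y := Real.log n with hy
  have hy0 : 0 ≤ y := Real.log_nonneg hnR
  have hx0 : (0 : ℝ) < x := Real.sqrt_pos.2 (by linarith)
  have hτ : x⁻¹ = Real.exp (-(1 / 2) * y) := by
    rw [← Real.exp_log (inv_pos.2 hx0), Real.log_inv, Real.log_sqrt (by linarith), hy]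
    congr 1; ring
  have hsqrt : 3 * √(x⁻¹ + x⁻¹) ≤ 5 * Real.exp (-(1 / 4) * y) := by
    have he : √(Real.exp (-(1 / 2) * y)) = Real.exp (-(1 / 4) * y) := by
      rw [← Real.exp_half]; congr 1; ring
    rw [← two_mul, Real.sqrt_mul zero_le_two, hτ, he, ← mul_assoc]
    gcongr
    nlinarith [Real.sq_sqrt (zero_le_two (α := ℝ)), Real.sqrt_nonneg (2 : ℝ)]
  have habs : |Real.log x⁻¹| + 2 ≤ y + 2 := by
    rw [hτ, Real.log_exp, abs_of_nonpos (by linarith)]; linarith
  have hstep : stepErr x⁻¹ ≤ Real.exp (-(1 / 2) * y) +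
      (y + 2) * (5 * Real.exp (-(1 / 4) * y)) := by
    rw [stepErr]
    exact add_le_add hτ.le (mul_le_mul habs hsqrt (by positivity) (by linarith))
  have hn' : (n : ℝ) = Real.exp y := (Real.exp_log (by linarith)).symm
  have hp : (n : ℝ) ^ (4 / 5 : ℝ) = Real.exp (4 / 5 * y) := by
    rw [Real.rpow_def_of_pos (by linarith), hy, mul_comm]
  have he : ∀ a : ℝ, Real.exp y * Real.exp (-a * y) =
      Real.exp (4 / 5 * y) * Real.exp (-(a - 1 / 5) * y) := fun a => by
    rw [← Real.exp_add, ← Real.exp_add]; congr 1; ring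
  have e2 := he (1 / 2)
  have e4 := he (1 / 4)
  have e5 : Real.exp (4 / 5 * y) * Real.exp (-(4 / 5) * y) = 1 := by
    rw [← Real.exp_add]; simp
  norm_num at e2 e4
  rw [hp]
  calc totalErr n x⁻¹ + 1 + y ≤ n * ((1 + y) * stepErr x⁻¹) + (1 + y) := by
        linarith [totalErr_le (n := n) (τ := x⁻¹) (by positivity)]
    _ ≤ Real.exp y * ((1 + y) * (Real.exp (-(1 / 2) * y) +
        (y + 2) * (5 * Real.exp (-(1 / 4) * y)))) + (1 + y) := by
        rw [hn']; gcongr
    _ = Real.exp (4 / 5 * y) * ((1 + y) * (Real.exp (-(3 / 10) * y) +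
        (y + 2) * (5 * Real.exp (-(1 / 20) * y))) + (1 + y) * Real.exp (-(4 / 5) * y)) := by
        linear_combination (norm := ring_nf) (1 + y) * e2 + 5 * (1 + y) * (y + 2) * e4 - (1 + y) * e5
    _ ≤ _ := mul_le_of_le_one_right (Real.exp_pos _).le h1

/-- Petty up to `exp (-n ^ (4 / 5))`, and exact outside a vanishing isoperimetric neighbourhood. -/
theorem petty_rate (hPos : ExactPosition) (hZ : ZonoEntropy) (hG : GoodSet) (hS : StepBound) :
    ∃ n₀ : ℕ, ∀ n, n₀ ≤ n → ∀ K : Set (E n), IsCompact K → Convex ℝ K → (interior K).Nonempty →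
      Real.exp (-(n : ℝ) ^ (4 / 5 : ℝ)) * (kappa (n - 1) ^ n * kappa n ^ ((2 : ℤ) - n)) *
          (volume K).toReal ^ (n - 1) ≤ (volume (projBody K)).toReal ∧
        (SurfaceAtLeast K ((1 + (n : ℝ) ^ (-(1 / 12) : ℝ)) *
            (n * (kappa n * (volume K).toReal ^ (n - 1)) ^ ((n : ℝ)⁻¹))) →
          Real.exp ((n : ℝ) ^ (4 / 5 : ℝ)) * (kappa (n - 1) ^ n * kappa n ^ ((2 : ℤ) - n)) *
            (volume K).toReal ^ (n - 1) ≤ (volume (projBody K)).toReal) := by
  have ht : Tendsto (fun n : ℕ => (n : ℝ) ^ (1 / 30 : ℝ)) atTop atTop :=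
    (tendsto_rpow_atTop (by norm_num)).comp tendsto_natCast_atTop_atTop
  obtain ⟨n₁, hn₁⟩ := eventually_atTop.1 (eventually_rate.and (ht.eventually_ge_atTop 400))
  refine ⟨max n₁ 4, fun n hn K hK hKc hi => ?_⟩
  have hn4 : 4 ≤ n := le_of_max_le_right hn
  obtain ⟨⟨hbad, herr⟩, hbig⟩ := hn₁ n (le_of_max_le_left hn)
  have hnR : (4 : ℝ) ≤ n := by exact_mod_cast hn4
  have hn0 : (0 : ℝ) < n := by linarith
  have hLam := logRatio_ge (n := n) (by omega)
  set τ := (√(n : ℝ))⁻¹
  set p := (n : ℝ) ^ (4 / 5 : ℝ)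
  have hp1 : 1 ≤ p := Real.one_le_rpow (by linarith) (by norm_num)
  refine ⟨?_, fun hsurf => ?_⟩
  · have hτ : 0 < τ := inv_pos.2 (Real.sqrt_pos.2 (by linarith))
    have hτ1 : τ ≤ 1 := inv_le_one_of_one_le₀ (Real.one_le_sqrt.2 (by linarith))
    have hk : 0 < kappa n :=
      ENNReal.toReal_pos (Metric.measure_ball_pos volume _ one_pos).ne' measure_ball_lt_top.ne
    set D := kappa n * (1 - badShare n τ) * Real.exp ((logRatio n - totalErr n τ) / 2)
    have hD : 0 ≤ D := mul_nonneg (mul_nonneg hk.le (by linarith)) (Real.exp_pos _).le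
    have h := body_of_polytope hD
      (fun M v hv hb => polytope_bound hPos hZ hG hS (by omega : 2 ≤ n) v hv hb hτ hτ1) hK hKc hi
    refine le_trans (mul_le_mul_of_nonneg_right ?_ (by positivity)) h
    have hz : kappa n ^ ((2 : ℤ) - n) = kappa n / kappa n ^ (n - 1) := by
      rw [← zpow_natCast (kappa n) (n - 1), Nat.cast_sub (by omega)]
      nth_rw 2 [← zpow_one (kappa n)]
      rw [← zpow_sub₀ hk.ne']
      congr 1
      push_cast
      ring
    have hball : kappa (n - 1) ^ n / kappa n ^ (n - 1) ≤ Real.exp ((n : ℝ) / 2) / 2 := by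
      rw [div_le_iff₀ (pow_pos hk _)]
      refine ((ballConst n hn4).le).trans_eq ?_
      rw [← Real.exp_half, ← Real.exp_nat_mul, mul_comm, mul_one_div]
    rw [hz]
    calc Real.exp (-p) * (kappa (n - 1) ^ n * (kappa n / kappa n ^ (n - 1)))
        = kappa n * (kappa (n - 1) ^ n / kappa n ^ (n - 1)) * Real.exp (-p) := by ring
      _ ≤ kappa n * (Real.exp ((n : ℝ) / 2) / 2) * Real.exp (-p) := by gcongr
      _ = kappa n * (1 / 2) * Real.exp ((n : ℝ) / 2 - p) := by
          rw [sub_eq_add_neg, Real.exp_add]; ring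
      _ ≤ D := by
          exact mul_le_mul (mul_le_mul_of_nonneg_left (by linarith) hk.le)
            (Real.exp_le_exp.2 (by linarith)) (Real.exp_pos _).le (mul_nonneg hk.le (by linarith))
  · set e := (n : ℝ) ^ (-(1 / 12) : ℝ) with hedef
    have he0 : 0 < e := Real.rpow_pos_of_pos hn0 _
    have he1 : e ≤ 1 := Real.rpow_le_one_of_one_le_of_nonpos (by linarith) (by norm_num)
    refine exact_petty_at hPos hZ hG hS hn4 he0 (η := e / 6) (by positivity) (by linarith) ?_ hbad
      ?_ hK hKc hi hsurf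
    · have h := Real.one_sub_inv_le_log_of_pos (show 0 < 1 + e / 2 by linarith)
      have h2 : e / 3 ≤ 1 - (1 + e / 2)⁻¹ := by
        rw [le_sub_comm, inv_le_iff_one_le_mul₀ (by linarith)]; nlinarith
      linarith
    · have h5 : (n : ℝ) * e ^ 2 = p * (n : ℝ) ^ (1 / 30 : ℝ) := by
        rw [hedef, ← Real.rpow_natCast, ← Real.rpow_mul hn0.le]
        nth_rw 1 [← Real.rpow_one (n : ℝ)]
        rw [← Real.rpow_add hn0, ← Real.rpow_add hn0]
        norm_num
      have h6 : (n : ℝ) * (e / 6) ^ 2 / 2 = p * (n : ℝ) ^ (1 / 30 : ℝ) / 72 := by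
        rw [← h5]; ring
      have h7 : p * 400 ≤ p * (n : ℝ) ^ (1 / 30 : ℝ) :=
        mul_le_mul_of_nonneg_left hbig (by linarith)
      linarith

end Vale.Agent.P237.Asymp
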