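import Vale.Agent.P237.Asymp.Base
import Vale.Agent.P237.ZonoDet

/-!
P237: the volume of an isotropic zonotope is at least the exponential of the chain entropy.
Enlarging all segments of a zonotope bounds `n` times its volume below by the lengths times the
shadows; the shadow along a recorded direction is the next state of the chain.
-/

noncomputable section

open MeasureTheory Set Matrix
open scoped RealInnerProductSpace ENNReal Pointwise

namespace Vale.Agent.P237.Asymp.ZE

open ZonoAux

variable {n m : ℕ}

/-- The shadow of `Z` along `e`, times a unit segment. -/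
def shadowBox (e : E n) (Z : Set (E n)) : Set (E n) :=
  (fun p : E n × ℝ => (p.1 - ⟪e, p.1⟫ • e) + p.2 • e) '' Z ×ˢ Icc (0 : ℝ) 1

theorem isCompact_shadowBox (e : E n) {Z : Set (E n)} (hZ : IsCompact Z) :
    IsCompact (shadowBox e Z) := by
  refine (hZ.prod isCompact_Icc).image ?_
  fun_prop

/-- Moving a compact set by a segment adds the length times the shadow. -/
theorem volume_add_segment {k : ℕ} {Z Z' : Set (E (k + 1))} (hZ : IsCompact Z)
    (hZ' : IsCompact Z') {e : E (k + 1)} (he : ‖e‖ = 1) {L : ℝ} (hL : 0 ≤ L)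
    (h : ∀ z ∈ Z, ∀ t ∈ Icc (0 : ℝ) 1, z + t • (L • e) ∈ Z') :
    volume Z + ENNReal.ofReal L * volume (shadowBox e Z) ≤ volume Z' := by
  set e₀ : E (k + 1) := EuclideanSpace.single 0 1 with he₀
  set Q : E (k + 1) ≃ₗᵢ[ℝ] E (k + 1) := (ℝ ∙ (e - e₀))ᗮ.reflection with hQdef
  have hQ : Q e = e₀ := Submodule.reflection_sub (by simp [he, e₀])
  have hvQ : ∀ {A : Set (E (k + 1))}, IsCompact A → volume (Q '' A) = volume A := by
    intro A hA
    rw [← Q.measurePreserving.measure_preimage
      (hA.image Q.continuous).isClosed.measurableSet.nullMeasurableSet,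
      Q.injective.preimage_image]
  have main := volume_add_axis (hZ.image Q.continuous) (hZ'.image Q.continuous) hL (by
    rintro _ ⟨z, hz, rfl⟩ t ht
    exact ⟨_, h z hz t ht, by simp [hQ, e₀]⟩)
  rw [hvQ hZ, hvQ hZ'] at main
  refine le_trans (add_le_add le_rfl (mul_le_mul' le_rfl ?_)) main
  rw [← hvQ (isCompact_shadowBox e hZ)]
  have hT : IsCompact (tail k '' (Q '' Z)) :=
    (hZ.image Q.continuous).image (tail k).continuous_of_finiteDimensional
  have hB : IsCompact ((fun x : E k => (⇑x : Fin k → ℝ)) '' (tail k '' (Q '' Z))) :=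
    hT.image (PiLp.continuous_ofLp 2 _)
  refine le_trans (measure_mono (show Q '' shadowBox e Z ⊆ split k ⁻¹'
      (Icc (0 : ℝ) 1 ×ˢ ((fun x : E k => (⇑x : Fin k → ℝ)) '' (tail k '' (Q '' Z)))) from ?_)) ?_
  · rintro _ ⟨_, ⟨⟨z, s⟩, ⟨hz, hs⟩, rfl⟩, rfl⟩
    have hi : ⟪e, z⟫ = Q z 0 := by
      rw [← Q.inner_map_map, hQ]; simp [e₀, EuclideanSpace.inner_single_left]
    rw [Set.mem_preimage, Set.mem_prod]
    refine ⟨?_, tail k (Q z), ⟨Q z, ⟨z, hz, rfl⟩, rfl⟩, ?_⟩
    · rw [split_fst]
      simp [hQ, e₀, hi, hs.1, hs.2]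
    · rw [split_snd]
      funext j
      simp [tail_apply, hQ, e₀, Fin.succ_ne_zero]
  · rw [(split_preserving k).measure_preimage
      (measurableSet_Icc.prod hB.isClosed.measurableSet).nullMeasurableSet,
      Measure.prod_prod, Real.volume_Icc]
    norm_num
    rw [← (EuclideanSpace.volume_preserving_symm_measurableEquiv_toLp (Fin k)).measure_preimage
      hB.isClosed.measurableSet.nullMeasurableSet]
    refine measure_mono ?_
    intro x hx
    obtain ⟨y, hy, hyx⟩ := hx
    have : y = x := (MeasurableEquiv.toLp 2 (Fin k → ℝ)).symm.injective hyx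
    exact this ▸ hy

variable {ι : Type*} [Fintype ι]

theorem isCompact_zonoG (a : ι → E n) : IsCompact (zono a) :=
  (isCompact_univ_pi fun _ => isCompact_Icc).image
    (continuous_finsetSum _ fun i _ => (continuous_apply i).smul continuous_const)

/-- Scaling all the segments up by `1 + ε` on a set of indices. -/
def grown (a : ι → E n) (ε : ℝ) (S : Set ι) : ι → E n :=
  fun i => (1 + S.indicator (fun _ => ε) i) • a i

theorem zono_subset_grown (a : ι → E n) {ε : ℝ} (hε : 0 ≤ ε) (S : Set ι) :
    zono a ⊆ zono (grown a ε S) := by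
  rintro _ ⟨l, hl, rfl⟩
  have hpos : ∀ i, 0 ≤ S.indicator (fun _ => ε) i := fun i => indicator_nonneg (fun _ _ => hε) i
  refine ⟨fun i => l i / (1 + S.indicator (fun _ => ε) i), fun i _ => ?_, ?_⟩
  · have h1 := hl i (mem_univ _)
    refine ⟨div_nonneg h1.1 (by linarith [hpos i]), ?_⟩
    rw [div_le_one (by linarith [hpos i])]
    linarith [h1.2, hpos i]
  · refine Finset.sum_congr rfl fun i _ => ?_
    rw [grown, smul_smul, div_mul_cancel₀]
    linarith [hpos i]

theorem sweep_all {k : ℕ} (a : ι → E (k + 1)) (w : ι → E (k + 1)) (L : ι → ℝ)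
    (hw : ∀ i, L i ≠ 0 → ‖w i‖ = 1) (hL : ∀ i, 0 ≤ L i) (ha : ∀ i, a i = L i • w i) {ε : ℝ}
    (hε : 0 ≤ ε) (S : Finset ι) :
    (volume (zono a)).toReal + ε * ∑ i ∈ S, L i * (volume (shadowBox (w i) (zono a))).toReal
      ≤ (volume (zono (grown a ε (S : Set ι)))).toReal := by
  classical
  induction S using Finset.induction with
  | empty =>
    have : grown a ε ((∅ : Finset ι) : Set ι) = a := funext fun i => by simp [grown]
    rw [this]; simp
  | @insert j S hj ih =>
    have hsub : ∀ z ∈ zono (grown a ε (S : Set ι)), ∀ t ∈ Icc (0 : ℝ) 1,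
        z + t • ((ε * L j) • w j) ∈ zono (grown a ε ((insert j S : Finset ι) : Set ι)) := by
      rintro _ ⟨l, hl, rfl⟩ t ht
      refine ⟨Function.update l j ((l j + t * ε) / (1 + ε)), fun i _ => ?_, ?_⟩
      · by_cases hij : i = j
        · subst hij
          have h1 := hl i (mem_univ _)
          rw [Function.update_self]
          refine ⟨div_nonneg (add_nonneg h1.1 (mul_nonneg ht.1 hε)) (by linarith), ?_⟩
          rw [div_le_one (by linarith)]
          nlinarith [h1.2, ht.2]
        · rw [Function.update_of_ne hij]; exact hl i (mem_univ _)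
      · have hjS : j ∉ (S : Set ι) := by simpa using hj
        show (∑ i, Function.update l j ((l j + t * ε) / (1 + ε)) i •
          grown a ε ((insert j S : Finset ι) : Set ι) i) = (∑ i, l i • grown a ε (S : Set ι) i) + _
        rw [← Finset.sum_erase_add _ _ (Finset.mem_univ j),
          ← Finset.sum_erase_add _ (fun i => l i • grown a ε (S : Set ι) i) (Finset.mem_univ j),
          add_assoc]
        congr 1
        · refine Finset.sum_congr rfl fun i hi => ?_
          have hij := Finset.ne_of_mem_erase hi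
          rw [Function.update_of_ne hij]
          simp [grown, Set.indicator, hij]
        · rw [Function.update_self, grown, grown, Set.indicator_of_notMem hjS,
            Set.indicator_of_mem (by simp), smul_smul, div_mul_cancel₀ _ (by linarith), ha j]
          module
    by_cases h0 : L j = 0
    · rw [Finset.sum_insert hj, h0, zero_mul, zero_add]
      refine ih.trans (ENNReal.toReal_mono (isCompact_zonoG _).measure_ne_top (measure_mono ?_))
      intro z hz
      simpa [h0] using hsub z hz 0 ⟨le_rfl, zero_le_one⟩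
    have h := volume_add_segment (isCompact_zonoG (grown a ε (S : Set ι)))
      (isCompact_zonoG (grown a ε ((insert j S : Finset ι) : Set ι))) (hw j h0)
      (mul_nonneg hε (hL j)) hsub
    have hmono : (volume (shadowBox (w j) (zono a))).toReal
        ≤ (volume (shadowBox (w j) (zono (grown a ε (S : Set ι))))).toReal :=
      ENNReal.toReal_mono (isCompact_shadowBox _ (isCompact_zonoG _)).measure_ne_top
        (measure_mono (image_mono (prod_mono (zono_subset_grown a hε _) Subset.rfl)))
    have h' := ENNReal.toReal_mono (isCompact_zonoG _).measure_ne_top h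
    rw [ENNReal.toReal_add (isCompact_zonoG _).measure_ne_top
      (ENNReal.mul_ne_top ENNReal.ofReal_ne_top
        (isCompact_shadowBox _ (isCompact_zonoG _)).measure_ne_top),
      ENNReal.toReal_mul, ENNReal.toReal_ofReal (mul_nonneg hε (hL j))] at h'
    rw [Finset.sum_insert hj, mul_add]
    nlinarith [mul_le_mul_of_nonneg_left hmono (mul_nonneg hε (hL j))]

theorem pow_sub_one_le {ε : ℝ} (hε : 0 ≤ ε) (j : ℕ) :
    (1 + ε) ^ j - 1 ≤ j * ε * (1 + ε) ^ j := by
  induction j with
  | zero => simp
  | succ j ih =>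
    have h1 : (1 : ℝ) ≤ (1 + ε) ^ (j + 1) := one_le_pow₀ (by linarith)
    have h2 := mul_le_mul_of_nonneg_left ih (show (0 : ℝ) ≤ 1 + ε by linarith)
    push_cast
    rw [pow_succ'] at h1 ⊢
    nlinarith [mul_le_mul_of_nonneg_left h1 hε]

/-- `n` times the volume of a zonotope is at least the lengths times the shadows. -/
theorem sum_shadow_le {k : ℕ} (a : ι → E (k + 1)) (w : ι → E (k + 1)) (L : ι → ℝ)
    (hw : ∀ i, L i ≠ 0 → ‖w i‖ = 1) (hL : ∀ i, 0 ≤ L i) (ha : ∀ i, a i = L i • w i) :
    ∑ i, L i * (volume (shadowBox (w i) (zono a))).toReal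
      ≤ ((k + 1 : ℕ) : ℝ) * (volume (zono a)).toReal := by
  have key : ∀ ε : ℝ, 0 < ε → ∑ i, L i * (volume (shadowBox (w i) (zono a))).toReal
      ≤ ((k + 1 : ℕ) : ℝ) * (1 + ε) ^ (k + 1) * (volume (zono a)).toReal := by
    intro ε hε
    have h := sweep_all a w L hw hL ha hε.le Finset.univ
    have hsub : zono (grown a ε ((Finset.univ : Finset ι) : Set ι)) ⊆ (1 + ε) • zono a := by
      rintro _ ⟨l, hl, rfl⟩
      refine Set.mem_smul_set.2 ⟨∑ i, l i • a i, ⟨l, hl, rfl⟩, ?_⟩
      rw [Finset.smul_sum]
      refine Finset.sum_congr rfl fun i _ => ?_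
      rw [grown, Set.indicator_of_mem (by simp)]
      module
    have hvol : (volume (zono (grown a ε ((Finset.univ : Finset ι) : Set ι)))).toReal
        ≤ (1 + ε) ^ (k + 1) * (volume (zono a)).toReal := by
      have hfin : volume ((1 + ε) • zono a) ≠ ⊤ := ((isCompact_zonoG a).smul _).measure_ne_top
      refine (ENNReal.toReal_mono hfin (measure_mono hsub)).trans (le_of_eq ?_)
      rw [Measure.addHaar_smul_of_nonneg _ (by linarith), ENNReal.toReal_mul,
        ENNReal.toReal_ofReal (by positivity), finrank_euclideanSpace_fin]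
    have h2 := mul_le_mul_of_nonneg_right (pow_sub_one_le hε.le (k + 1))
      (ENNReal.toReal_nonneg (a := volume (zono a)))
    refine le_of_mul_le_mul_left ?_ hε
    nlinarith [h, hvol, h2]
  refine ge_of_tendsto (x := nhdsWithin (0 : ℝ) (Ioi 0))
    (f := fun ε => ((k + 1 : ℕ) : ℝ) * (1 + ε) ^ (k + 1) * (volume (zono a)).toReal) ?_ ?_
  · refine Filter.Tendsto.mono_left ?_ nhdsWithin_le_nhds
    have hc : Continuous fun ε : ℝ =>
        ((k + 1 : ℕ) : ℝ) * (1 + ε) ^ (k + 1) * (volume (zono a)).toReal := by fun_prop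
    simpa using hc.tendsto 0
  · filter_upwards [self_mem_nhdsWithin] with ε hε using key ε hε

variable {c : Fin m → ℝ} {u : Fin m → E n}

/-- The segments of the state `es`. -/
def segs (c : Fin m → ℝ) (u : Fin m → E n) (es : List (E n)) : Fin m ⊕ Fin es.length → E n :=
  Sum.elim (fun i => c i • perp es (u i)) es.get

/-- The volume of the state `es`. -/
def vol (c : Fin m → ℝ) (u : Fin m → E n) (es : List (E n)) : ℝ :=
  (volume (zono (segs c u es))).toReal

theorem inner_get {es : List (E n)} (h : Ortho es) {i j : Fin es.length} (hij : i ≠ j) :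
    ⟪es.get i, es.get j⟫ = 0 := by
  have hp := List.pairwise_iff_get.1 h.1
  rcases lt_or_gt_of_ne hij with hlt | hlt
  · exact hp i j hlt
  · rw [real_inner_comm]; exact hp j i hlt

theorem subset_shadow_old {es : List (E n)} (h : Ortho es) (j : Fin es.length) :
    zono (segs c u es) ⊆ shadowBox (es.get j) (zono (segs c u es)) := by
  rintro _ ⟨l, hl, rfl⟩
  have hj : ⟪es.get j, ∑ i, l i • segs c u es i⟫ = l (Sum.inr j) := by
    simp only [inner_add_right, inner_sum, real_inner_smul_right, Fintype.sum_sum_type, segs, Sum.elim_inl,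
      Sum.elim_inr, h.inner_mem_perp _ (List.get_mem es j), mul_zero, Finset.sum_const_zero,
      zero_add]
    rw [Finset.sum_eq_single j (fun i _ hi => by rw [inner_get h (Ne.symm hi), mul_zero]) (by simp),
      real_inner_self_eq_norm_sq, h.2 _ (List.get_mem es j)]
    ring
  refine ⟨(∑ i, l i • segs c u es i, l (Sum.inr j)), ⟨⟨l, hl, rfl⟩, hl _ (mem_univ _)⟩, ?_⟩
  simp only [hj, sub_add_cancel]

theorem nxt_subset_shadow {es : List (E n)} (h : Ortho es) {x : E n} (hx : perp es x ≠ 0) :
    zono (segs c u (nxt es x)) ⊆ shadowBox (‖perp es x‖⁻¹ • perp es x) (zono (segs c u es)) := by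
  set e := ‖perp es x‖⁻¹ • perp es x with he
  have hO : Ortho (e :: es) := h.nxt hx
  have horth : ∀ f ∈ es, ⟪e, f⟫ = 0 := (List.pairwise_cons.1 hO.1).1
  have hproj : ∀ v, perp (e :: es) v = perp es v - ⟪e, perp es v⟫ • e := by
    intro v
    have : ⟪e, perp es v⟫ = ⟪e, v⟫ := by
      rw [real_inner_comm, inner_perp, real_inner_comm v e]
      have h0 : (es.map fun f => ⟪f, v⟫ * ⟪f, e⟫).sum = 0 := List.sum_eq_zero fun y hy => by
        obtain ⟨f, hf, rfl⟩ := List.mem_map.1 hy
        rw [real_inner_comm e f, horth f hf, mul_zero]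
      rw [h0, sub_zero]
    rw [perp_cons, this]
  rintro _ ⟨l, hl, rfl⟩
  let l' : Fin m ⊕ Fin es.length → ℝ :=
    Sum.elim (fun i => l (Sum.inl i)) (fun j => l (Sum.inr (Fin.succ j)))
  refine ⟨(∑ i, l' i • segs c u es i, l (Sum.inr ⟨0, Nat.succ_pos _⟩)),
    ⟨⟨l', fun i _ => by cases i <;> exact hl _ (mem_univ _), rfl⟩, hl _ (mem_univ _)⟩, ?_⟩
  have hinr : (∑ j : Fin (nxt es x).length, l (Sum.inr j) • segs c u (nxt es x) (Sum.inr j))
      = l (Sum.inr ⟨0, Nat.succ_pos _⟩) • e
        + ∑ j : Fin es.length, l (Sum.inr (Fin.succ j)) • es.get j :=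
    Fin.sum_univ_succ (n := es.length)
      (fun j => l (Sum.inr j) • segs c u (nxt es x) (Sum.inr j))
  have hinl : ∀ i, segs c u (nxt es x) (Sum.inl i)
      = c i • perp es (u i) - ⟪e, c i • perp es (u i)⟫ • e := by
    intro i
    show c i • perp (e :: es) (u i) = _
    rw [hproj, smul_sub, real_inner_smul_right, smul_smul]
  simp only [Fintype.sum_sum_type, hinr, hinl]
  simp only [l', segs, Sum.elim_inl, Sum.elim_inr, inner_add_right, inner_sum,
    real_inner_smul_right, horth _ (List.get_mem es _), mul_zero, Finset.sum_const_zero, add_zero,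
    smul_sub, smul_smul, mul_assoc, Finset.sum_sub_distrib, ← Finset.sum_smul]
  abel

theorem one_le_vol {es : List (E n)} (h : Ortho es) (hlen : es.length = n) :
    1 ≤ vol c u es := by
  have hon : Orthonormal ℝ es.get :=
    ⟨fun i => h.2 _ (List.get_mem es i), fun i j hij => inner_get h hij⟩
  by_cases hn : n = 0
  · subst hn
    have h1 := ZonoAux.aux 0 0 (fun i => i.elim0) (fun i => i.elim0) (fun i => i.elim0)
      (fun i => i.elim0)
    rw [gram_zero_dim, ENNReal.ofReal_one] at h1
    have h2 : zono (fun i : Fin 0 => (i.elim0 : E 0)) ⊆ zono (segs c u es) := fun z _ =>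
      ⟨0, fun i _ => by simp, Subsingleton.elim _ _⟩
    have := ENNReal.toReal_mono (isCompact_zonoG _).measure_ne_top (h1.trans (measure_mono h2))
    simpa [vol] using this
  have : Nonempty (Fin es.length) := ⟨⟨0, by omega⟩⟩
  have hcard : Fintype.card (Fin es.length) = Module.finrank ℝ (E n) := by simp [hlen]
  set B := (basisOfOrthonormalOfCardEqFinrank hon hcard).toOrthonormalBasis (by simpa using hon)
    with hB
  have hBc : (⇑B : Fin es.length → E n) = es.get := by simp [B]
  have hv := B.volume_parallelepiped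
  rw [hBc] at hv
  have hsub : parallelepiped es.get ⊆ zono (segs c u es) := by
    rintro _ ⟨t, ht, rfl⟩
    refine ⟨Sum.elim (fun _ => 0) t, fun i _ => ?_, by simp [segs]⟩
    cases i with
    | inl i => simp
    | inr j => exact ⟨ht.1 j, ht.2 j⟩
  have := ENNReal.toReal_mono (isCompact_zonoG _).measure_ne_top (measure_mono (μ := volume) hsub)
  simpa [vol, hv] using this

/-- The bound of the chain from the state `es` with `r` steps left. -/
def G (c : Fin m → ℝ) (u : Fin m → E n) (r : ℕ) (es : List (E n)) : ℝ :=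
  -(1 / 2) * ∑ k ∈ Finset.range r, ((n : ℝ) - es.length - k)⁻¹ *
    ∑ i, c i * chain c u k es fun fs => ‖perp fs (u i)‖ ^ 2 * Real.log (‖perp fs (u i)‖ ^ 2)

theorem G_succ (r : ℕ) (es : List (E n)) :
    G c u (r + 1) es = ∑ j, prob c u es j *
      (G c u r (nxt es (u j)) - 1 / 2 * Real.log (‖perp es (u j)‖ ^ 2)) := by
  simp only [mul_sub, Finset.sum_sub_distrib, G]
  rw [Finset.sum_range_succ', mul_add]
  simp only [chain, length_nxt, Nat.cast_add, Nat.cast_one, Nat.cast_zero, sub_zero]
  rw [sub_eq_add_neg (∑ j, prob c u es j * _) (∑ j, prob c u es j * _)]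
  congr 1
  · simp only [Finset.mul_sum]
    rw [Finset.sum_comm (s := Finset.univ) (t := Finset.range r)]
    refine Finset.sum_congr rfl fun k _ => ?_
    rw [Finset.sum_comm (s := Finset.univ) (t := Finset.univ)]
    refine Finset.sum_congr rfl fun j _ => Finset.sum_congr rfl fun i _ => ?_
    rw [show (n : ℝ) - es.length - (k + 1) = (n : ℝ) - (es.length + 1) - k by ring]
    ring
  · simp only [prob, Finset.mul_sum, ← Finset.sum_neg_distrib]
    exact Finset.sum_congr rfl fun j _ => by ring

theorem exp_G_le {k : ℕ} {c : Fin m → ℝ} {u : Fin m → E (k + 1)} (hF : Frame c u) :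
    ∀ (r : ℕ) (es : List (E (k + 1))), Ortho es → es.length + r = k + 1 →
      Real.exp (G c u r es) ≤ vol c u es := by
  intro r
  induction r with
  | zero =>
    intro es h hlen
    simpa [G] using one_le_vol h hlen
  | succ r ih =>
    intro es h hlen
    have hl : es.length < k + 1 := by omega
    have hD : (0 : ℝ) < ((k + 1 : ℕ) : ℝ) - es.length := by
      rw [sub_pos]; exact_mod_cast hl
    set e : Fin m → E (k + 1) := fun j => ‖perp es (u j)‖⁻¹ • perp es (u j) with he
    have hsw := sum_shadow_le (segs c u es) (Sum.elim e es.get)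
      (Sum.elim (fun j => c j * ‖perp es (u j)‖) (fun _ => 1)) (fun i => by
        cases i with
        | inl j =>
          intro hne
          have hp : ‖perp es (u j)‖ ≠ 0 := fun h0 => hne (by simp [h0])
          show ‖‖perp es (u j)‖⁻¹ • perp es (u j)‖ = 1
          rw [norm_smul, norm_inv, norm_norm, inv_mul_cancel₀ hp]
        | inr j => intro _; exact h.2 _ (List.get_mem es j))
      (fun i => by
        cases i with
        | inl j => exact mul_nonneg (hF.1 j) (norm_nonneg _)
        | inr j => exact zero_le_one)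
      (fun i => by
        cases i with
        | inl j =>
          show c j • perp es (u j) = _ • (‖perp es (u j)‖⁻¹ • perp es (u j))
          by_cases hp : perp es (u j) = 0
          · simp [hp]
          · simp only [Sum.elim_inl]
            rw [smul_smul, mul_assoc, mul_inv_cancel₀ (norm_ne_zero_iff.2 hp), mul_one]
        | inr j => exact (one_smul ℝ _).symm)
    rw [Fintype.sum_sum_type] at hsw
    simp only [Sum.elim_inl, Sum.elim_inr, one_mul] at hsw
    have hold : (es.length : ℝ) * vol c u es
        ≤ ∑ j, (volume (shadowBox (es.get j) (zono (segs c u es)))).toReal := by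
      have := Finset.card_nsmul_le_sum (Finset.univ : Finset (Fin es.length))
        (fun j => (volume (shadowBox (es.get j) (zono (segs c u es)))).toReal) (vol c u es)
        fun j _ => ENNReal.toReal_mono (isCompact_shadowBox _ (isCompact_zonoG _)).measure_ne_top
          (measure_mono (subset_shadow_old h j))
      simpa [nsmul_eq_mul] using this
    have hnew : ∀ j, prob c u es j * Real.exp
        (G c u r (nxt es (u j)) - 1 / 2 * Real.log (‖perp es (u j)‖ ^ 2)) ≤
        (((k + 1 : ℕ) : ℝ) - es.length)⁻¹ *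
          (c j * ‖perp es (u j)‖ * (volume (shadowBox (e j) (zono (segs c u es)))).toReal) := by
      intro j
      by_cases hx : perp es (u j) = 0
      · simp [prob, hx]
      have hy : 0 < ‖perp es (u j)‖ := norm_pos_iff.2 hx
      have hV := (ih _ (h.nxt hx) (by rw [length_nxt]; omega)).trans
        (ENNReal.toReal_mono (isCompact_shadowBox _ (isCompact_zonoG _)).measure_ne_top
          (measure_mono (nxt_subset_shadow (c := c) (u := u) h hx)))
      rw [Real.exp_sub, show 1 / 2 * Real.log (‖perp es (u j)‖ ^ 2)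
        = Real.log ‖perp es (u j)‖ by rw [Real.log_pow]; push_cast; ring, Real.exp_log hy]
      have h2 := mul_le_mul_of_nonneg_left hV
        (mul_nonneg (inv_nonneg.2 hD.le) (mul_nonneg (hF.1 j) hy.le))
      refine le_trans (le_of_eq ?_) (h2.trans (le_of_eq ?_))
      · rw [prob]; field_simp
      · ring
    rw [G_succ]
    refine (convexOn_exp.map_sum_le (fun j _ => prob_nonneg hF hl.le j) (sum_prob hF h hl)
      (fun j _ => mem_univ _)).trans ?_
    simp only [smul_eq_mul]
    refine (Finset.sum_le_sum fun j _ => hnew j).trans ?_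
    rw [← Finset.mul_sum, inv_mul_le_iff₀ hD, sub_mul]
    simp only [vol] at hold ⊢
    linarith

end Vale.Agent.P237.Asymp.ZE

namespace Vale.Agent.P237.Asymp

/-- The zonotope entropy bound of the pins. -/
theorem zonoEntropy : ZonoEntropy := by
  intro n m c u hn hF
  obtain ⟨k, rfl⟩ : ∃ k, n = k + 1 := ⟨n - 1, by omega⟩
  have h := ZE.exp_G_le hF (k + 1) [] Ortho.nil (by simp)
  refine le_trans ?_ (le_of_eq_of_le (ENNReal.ofReal_toReal
    (ZE.isCompact_zonoG (ZE.segs c u [])).measure_ne_top) (measure_mono ?_))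
  · refine ENNReal.ofReal_le_ofReal (le_trans (le_of_eq ?_) h)
    simp [ZE.G, entropyTerm]
  · rintro _ ⟨l, hl, rfl⟩
    refine ⟨fun i => l (Sum.inl i), fun i _ => hl _ (mem_univ _), ?_⟩
    simp [ZE.segs, Fintype.sum_sum_type, perp_nil]

end Vale.Agent.P237.Asymp
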