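import Vale.Agent.P237.Asymp.Base
import Vale.Agent.P237.CylinderAssembly

/-!
P237: from the blocks to the asymptotic Petty inequality for polytopes, and then for all convex
bodies.
-/

noncomputable section

open MeasureTheory Set Matrix Filter
open scoped RealInnerProductSpace ENNReal Topology Pointwise

namespace Vale.Agent.P237.Asymp

variable {n N : ℕ}

/-- `Σ_k log (n / (n - k))`, the logarithm of `n ^ n / n!`. -/
def logRatio (n : ℕ) : ℝ := -∑ k ∈ Finset.range n, Real.log (1 - (k : ℝ) / n)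

/-- The error of one step of the chain. -/
def stepErr (τ : ℝ) : ℝ := τ + (|Real.log τ| + 2) * (3 * √(τ + τ))

/-- The error accumulated along the chain. -/
def totalErr (n : ℕ) (τ : ℝ) : ℝ :=
  ∑ k ∈ Finset.range n, (n : ℝ) / ((n : ℝ) - k) * stepErr τ

/-- The share of the ball that is lost. -/
def badShare (n : ℕ) (τ : ℝ) : ℝ :=
  ((n : ℝ) + 1) ^ 2 * ((1 / 2) ^ n + 2 * Real.exp (-(n * τ) / 8)) / τ

lemma one_sub_div_pos {k n : ℕ} (hk : k < n) : 0 < 1 - (k : ℝ) / n := by
  rw [sub_pos, div_lt_one (by exact_mod_cast (show 0 < n by omega))]; exact_mod_cast hk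

lemma logRatio_nonneg (n : ℕ) : 0 ≤ logRatio n :=
  neg_nonneg.2 <| Finset.sum_nonpos fun k hk =>
    Real.log_nonpos (one_sub_div_pos (Finset.mem_range.1 hk)).le (by
      have : (0 : ℝ) ≤ (k : ℝ) / n := by positivity
      linarith)

lemma logRatio_le (n : ℕ) : logRatio n ≤ n := by
  rcases Nat.eq_zero_or_pos n with rfl | hn
  · simp [logRatio]
  have hnR : (0 : ℝ) < n := by exact_mod_cast hn
  have hprod : ∏ k ∈ Finset.range n, (1 - (k : ℝ) / n) = (n.factorial : ℝ) / (n : ℝ) ^ n := by
    rw [← Finset.prod_range_reflect, ← Finset.prod_range_add_one_eq_factorial, Nat.cast_prod,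
      show (n : ℝ) ^ n = ∏ _k ∈ Finset.range n, (n : ℝ) by simp, ← Finset.prod_div_distrib]
    refine Finset.prod_congr rfl fun k hk => ?_
    have hk' := Finset.mem_range.1 hk
    rw [show n - 1 - k = n - (k + 1) by omega, Nat.cast_sub (by omega)]
    field_simp
    push_cast
    ring
  have h := Real.pow_div_factorial_le_exp (n : ℝ) hnR.le n
  rw [logRatio, ← Real.log_prod (fun k hk => (one_sub_div_pos (Finset.mem_range.1 hk)).ne'), hprod,
    ← Real.log_inv, inv_div]
  exact (Real.log_le_iff_le_exp (by positivity)).2 h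

lemma stepErr_nonneg {τ : ℝ} (hτ : 0 ≤ τ) : 0 ≤ stepErr τ := by unfold stepErr; positivity

lemma far_smul (τ : ℝ) (x : E n) {a : ℝ} (ha : a ≠ 0) : far τ (a • x) = far τ x := by
  funext es
  have h : ∀ e : E n, τ * ‖a • x‖ ^ 2 < ⟪e, a • x⟫ ^ 2 ↔ τ * ‖x‖ ^ 2 < ⟪e, x⟫ ^ 2 := by
    intro e
    have hnorm : τ * ‖a • x‖ ^ 2 = a ^ 2 * (τ * ‖x‖ ^ 2) := by
      rw [norm_smul, mul_pow, Real.norm_eq_abs, sq_abs]; ring
    rw [hnorm, real_inner_smul_right, mul_pow]
    exact mul_lt_mul_iff_right₀ (by positivity)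
  simp only [far, h]

lemma entropyTerm_nonpos {c : Fin N → ℝ} {u : Fin N → E n} (hF : Frame c u) {k : ℕ} (hk : k ≤ n)
    {x : E n} (hx : ‖x‖ ≤ 1) : entropyTerm c u k x ≤ 0 := by
  refine (chain_mono hF k [] Ortho.nil (by simpa using hk) (g := fun _ => 0) fun es ho _ => ?_).trans
    (chain_const hF k [] Ortho.nil (by simpa using hk) 0).le
  exact Real.mul_log_nonpos (sq_nonneg _)
    (pow_le_one₀ (norm_nonneg _) ((ho.norm_perp_le x).trans hx))

/-- The family of facet area vectors spans. -/
lemma spanning (hn : 0 < n) (v : Fin N → E n) (hv : Function.Injective v)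
    (hb : Bornology.IsBounded (Poly v fun _ => 1)) (hK : 0 < (volume (Poly v fun _ => 1)).toReal)
    (y : E n) (hy : ∀ i, ⟪((n : ℝ) * coneVol v i) • v i, y⟫ = 0) : y = 0 := by
  by_contra hy0
  set U := (ℝ ∙ y)
  set B := (∑ i, coneVol v i * ‖v i‖) ^ n
  set K0 := kappa n * (volume (Poly v fun _ => 1)).toReal ^ (n - 1)
  have hK0 : 0 < K0 := mul_pos
    (ENNReal.toReal_pos (Metric.measure_ball_pos volume _ one_pos).ne' measure_ball_lt_top.ne)
    (pow_pos hK _)
  set R : ℝ := |B| / K0 + 1 with hR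
  have hR0 : 0 < R := by positivity
  set L := stretch U R '' Metric.closedBall (0 : E n) 1
  have hsym : ∀ a b : E n, ⟪a, stretch U R b⟫ = ⟪stretch U R a, b⟫ := fun a b => by
    simp [stretch, inner_add_left, inner_add_right, real_inner_smul_left, real_inner_smul_right,
      Submodule.inner_starProjection_left_eq_right]
  have hL : L ⊆ Poly v fun i => ‖stretch U R (v i)‖ := by
    rintro _ ⟨x, hx, rfl⟩ i
    rw [hsym]
    exact (real_inner_le_norm _ _).trans
      (mul_le_of_le_one_right (norm_nonneg _) (mem_closedBall_zero_iff.1 hx))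
  have h := minkowskiFirst n N v (fun i => ‖stretch U R (v i)‖) L hn hv hb (fun i => norm_nonneg _)
    ((isCompact_closedBall _ _).image (LinearMap.continuous_of_finiteDimensional _))
    ((convex_closedBall _ _).linear_image _) ⟨0, by simp, map_zero _⟩ hL
  have hvol : (volume L).toReal = R * kappa n := by
    rw [Measure.addHaar_image_linearMap, det_stretch, finrank_span_singleton hy0, pow_one,
      ENNReal.toReal_mul, volume_closedBall_toReal _ zero_le_one, one_pow, one_mul,
      ENNReal.toReal_ofReal (abs_nonneg _), abs_of_pos hR0]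
  have hsum : ∑ i, coneVol v i * ‖stretch U R (v i)‖ = ∑ i, coneVol v i * ‖v i‖ := by
    refine Finset.sum_congr rfl fun i _ => ?_
    rcases eq_or_ne (coneVol v i) 0 with h0 | h0
    · simp [h0]
    · have h1 := hy i
      rw [real_inner_smul_left, mul_eq_zero] at h1
      have h2 : ⟪v i, y⟫ = 0 := h1.resolve_left (mul_ne_zero (by positivity) h0)
      have h3 : U.starProjection (v i) = 0 := U.starProjection_apply_eq_zero_iff.2
        (Submodule.mem_orthogonal_singleton_iff_inner_left.2 h2)
      simp [stretch, h3]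
  rw [hvol, hsum, mul_assoc] at h
  change R * K0 ≤ B at h
  have : R * K0 = |B| + K0 := by rw [hR]; field_simp
  linarith [le_abs_self B]

/-- In isotropic position `T`: the projection volume against the surface area `n * s` and the mean
`M` of the truncated support function. -/
theorem polytope_core (hPos : ExactPosition) (hZ : ZonoEntropy) (hG : GoodSet) (hS : StepBound)
    (hn : 2 ≤ n) (v : Fin N → E n) (hv : Function.Injective v)
    (hb : Bornology.IsBounded (Poly v fun _ => 1)) {τ : ℝ} (hτ : 0 < τ) (hτ1 : τ ≤ 1) :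
    ∃ (T : Matrix (Fin n) (Fin n) ℝ) (s M : ℝ), |T.det| = 1 ∧ 0 < s ∧
      ∑ i, coneVol v i * ‖toEuclideanLin T (v i)‖ = s ∧ 0 ≤ M ∧ M ≤ 1 ∧
      kappa n * (1 - badShare n τ) * (volume (Poly v fun _ => 1)).toReal ^ (n - 1) ≤ (s * M) ^ n ∧
      s ^ n * Real.exp ((logRatio n * M ^ 2 - totalErr n τ) / 2) ≤
        (volume (projBody (Poly v fun _ => 1))).toReal := by
  set K := Poly v fun _ => 1 with hKdef
  have hV : 0 ≤ (volume (projBody K)).toReal := ENNReal.toReal_nonneg
  have hk : 0 ≤ kappa n := ENNReal.toReal_nonneg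
  have hn0 : 0 < n := by omega
  have hKi : (interior K).Nonempty := by
    refine ⟨0, mem_interior.2 ⟨⋂ i, {x | ⟪v i, x⟫ < 1}, fun x hx i => (mem_iInter.1 hx i).le,
      isOpen_iInter_of_finite fun i => isOpen_lt (by fun_prop) continuous_const, by simp⟩⟩
  have hKvol : 0 < (volume K).toReal :=
    ENNReal.toReal_pos (Measure.measure_pos_of_nonempty_interior volume hKi).ne'
      hb.measure_lt_top.ne
  have hKc : IsCompact K := Metric.isCompact_of_isClosed_isBounded (isClosed_Poly _ _) hb
  set a : Fin N → E n := fun i => ((n : ℝ) * coneVol v i) • v i with ha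
  have hV0 : ∀ i, 0 ≤ coneVol v i := fun i => ENNReal.toReal_nonneg
  have hsub : zono a ⊆ projBody K := by
    rintro z ⟨l, hl, rfl⟩ w hw
    have h1 := (prismBound n N v w hn0 hv hb).trans (shadowBound n K w hKc (convex_Poly _ _) hw)
    rw [ENNReal.ofReal_le_ofReal_iff (projArea_nonneg _ _)] at h1
    refine le_trans ?_ h1
    rw [sum_inner]
    refine Finset.sum_le_sum fun i _ => ?_
    have hli := hl i (mem_univ i)
    simp only [a, real_inner_smul_left]
    have hc : 0 ≤ (n : ℝ) * coneVol v i := mul_nonneg (by positivity) (hV0 i)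
    exact (mul_le_mul_of_nonneg_left (mul_le_mul_of_nonneg_left (le_max_left _ (0 : ℝ)) hc)
      hli.1).trans (mul_le_of_le_one_left (mul_nonneg hc (le_max_right _ _)) hli.2)
  -- isotropic position
  obtain ⟨T, s, hT, hs, hsum, hframe⟩ :=
    hPos n N a hn0 (fun y hy => spanning hn0 v hv hb hKvol y hy)
  set y := fun i => toEuclideanLin T (v i) with hy
  set b := fun i => toEuclideanLin T (a i) with hbdef
  have hb_eq : ∀ i, b i = ((n : ℝ) * coneVol v i) • y i := fun i => map_smul _ _ _
  have hbn : ∀ i, ‖b i‖ = (n : ℝ) * coneVol v i * ‖y i‖ := fun i => by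
    rw [hb_eq, norm_smul, Real.norm_of_nonneg (mul_nonneg (by positivity) (hV0 i))]
  set e₀ : E n := EuclideanSpace.single ⟨0, hn0⟩ 1
  set u := fun i => if y i = 0 then e₀ else ‖y i‖⁻¹ • y i with hu
  have hyu : ∀ i, y i = ‖y i‖ • u i := fun i => by
    rcases eq_or_ne (y i) 0 with h0 | h0
    · simp [h0]
    · rw [hu]; simp only [if_neg h0]; rw [smul_inv_smul₀ (norm_ne_zero_iff.2 h0)]
  have hu1 : ∀ i, ‖u i‖ = 1 := fun i => by
    rcases eq_or_ne (y i) 0 with h0 | h0
    · simp [hu, h0, e₀]
    · simp [hu, h0, norm_smul]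
  set c := fun i => ‖b i‖ / s with hc
  have hcu : ∀ i, b i = s • (c i • u i) := fun i => by
    rw [smul_smul, hc, mul_div_cancel₀ _ hs.ne', hbn, mul_smul, ← hyu, hb_eq]
  have hF : Frame c u := by
    refine ⟨fun i => by positivity, hu1, fun x => ?_⟩
    have hterm : ∀ i, (‖b i‖⁻¹ * ⟪b i, x⟫) • b i = s • ((c i * ⟪u i, x⟫) • u i) := fun i => by
      rcases eq_or_ne (b i) 0 with h0 | h0
      · simp [hc, h0]
      · have hb0 : ‖b i‖ ≠ 0 := norm_ne_zero_iff.2 h0
        rw [hcu i, real_inner_smul_left, real_inner_smul_left, ← hcu i]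
        nth_rw 2 [hcu i]
        simp only [smul_smul]
        congr 1
        rw [hc]
        field_simp
    have h := hframe x
    rw [Finset.sum_congr rfl fun i _ => hterm i, ← Finset.smul_sum] at h
    exact smul_right_injective (E n) hs.ne' h
  have hcsum : ∑ i, c i = (n : ℝ) := hF.sum_weight
  -- the zonotope
  set X := -(1 / 2) * ∑ k ∈ Finset.range n, ((n : ℝ) - k)⁻¹ * ∑ i, c i * entropyTerm c u k (u i)
  have hlowV : s ^ n * Real.exp X ≤ (volume (projBody K)).toReal := by
    have hz : volume (zono a) = ENNReal.ofReal (s ^ n) * volume (zono fun i => c i • u i) := by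
      have h1 := Measure.addHaar_smul_of_nonneg (volume : Measure (E n)) hs.le
        (zono fun i => c i • u i)
      rw [finrank_euclideanSpace_fin] at h1
      rw [← h1, ← volume_image_toEuclideanLin hT (zono a), image_zono, ← Set.image_smul]
      change _ = volume (⇑(s • (LinearMap.id : E n →ₗ[ℝ] E n)) '' zono fun i => c i • u i)
      rw [image_zono]
      exact congrArg (fun f => volume (zono f)) (funext hcu)
    have h := (mul_le_mul_right (hZ n N c u hn0 hF) (ENNReal.ofReal (s ^ n))).trans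
      (hz ▸ measure_mono hsub)
    rw [← ENNReal.ofReal_mul (pow_nonneg hs.le n)] at h
    exact (ENNReal.ofReal_le_iff_le_toReal (isBounded_projBody K).measure_lt_top.ne).1 h
  -- the direction bounds
  set Lam := logRatio n
  set Er := totalErr n τ
  set Q := fun i => ∑ k ∈ Finset.range n, (n : ℝ) / ((n : ℝ) - k) * entropyTerm c u k (u i) with hQ
  have hEr : 0 ≤ Er := Finset.sum_nonneg fun k hk => by
    have : (k : ℝ) ≤ n := by exact_mod_cast (Finset.mem_range.1 hk).le
    exact mul_nonneg (div_nonneg (by positivity) (by linarith)) (stepErr_nonneg hτ.le)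
  have hQ0 : ∀ i, Q i ≤ 0 := fun i => Finset.sum_nonpos fun k hk => by
    have hk' := Finset.mem_range.1 hk
    have : (k : ℝ) ≤ n := by exact_mod_cast hk'.le
    exact mul_nonpos_of_nonneg_of_nonpos (div_nonneg (by positivity) (by linarith))
      (entropyTerm_nonpos hF hk'.le (hu1 i).le)
  set r := fun i => min 1 √((Er - Q i) / Lam) with hr
  obtain ⟨G, hGball, hGgood, hGvol⟩ := hG n N c u τ τ hn0 hF hτ hτ1 hτ
  have hdir : ∀ x ∈ G, x ≠ 0 → ∀ i, ⟪u i, x⟫ ^ 2 * Lam ≤ Er - Q i := by
    intro x hx hx0 i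
    set z := ‖x‖⁻¹ • x
    have hxn : 0 < ‖x‖ := norm_pos_iff.2 hx0
    have hz : ‖z‖ = 1 := by
      rw [norm_smul, norm_inv, norm_norm, inv_mul_cancel₀ hxn.ne']
    have hstep : Q i ≤ ∑ k ∈ Finset.range n, (⟪u i, z⟫ ^ 2 * Real.log (1 - (k : ℝ) / n) +
        (n : ℝ) / ((n : ℝ) - k) * stepErr τ) := Finset.sum_le_sum fun k hk => by
      have hk' := Finset.mem_range.1 hk
      have hkR : (k : ℝ) < n := by exact_mod_cast hk'
      have hnk : (n : ℝ) - k ≠ 0 := by linarith
      have hn0 : (n : ℝ) ≠ 0 := by positivity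
      have h := hS n N c u k z (u i) τ τ τ hF hk' hz (hu1 i) hτ.le
        (by rw [far_smul τ x (inv_ne_zero hxn.ne')]; exact hGgood x hx k hk'.le) hτ hτ1
      refine (mul_le_mul_of_nonneg_left h
        (div_nonneg (by positivity) (by linarith))).trans_eq ?_
      rw [stepErr, add_assoc, mul_add]
      congr 1
      field_simp
    rw [Finset.sum_add_distrib, ← Finset.mul_sum] at hstep
    have hlam : ∑ k ∈ Finset.range n, Real.log (1 - (k : ℝ) / n) = -Lam := (neg_neg _).symm
    rw [hlam] at hstep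
    have hle : ⟪u i, x⟫ ^ 2 ≤ ⟪u i, z⟫ ^ 2 := by
      have hx1 : ‖x‖ ≤ 1 := mem_closedBall_zero_iff.1 (hGball hx)
      rw [show x = ‖x‖ • z by rw [smul_inv_smul₀ hxn.ne'], real_inner_smul_right, mul_pow]
      exact mul_le_of_le_one_left (sq_nonneg _) (pow_le_one₀ (norm_nonneg _) hx1)
    have hLam : 0 ≤ Lam := logRatio_nonneg n
    change _ ≤ _ + Er at hstep
    nlinarith [mul_le_mul_of_nonneg_right hle hLam]
  -- the Minkowski inequality
  set L := Poly u r ∩ Metric.closedBall (0 : E n) 1
  have hr0 : ∀ i, 0 ≤ r i := fun i => le_min zero_le_one (Real.sqrt_nonneg _)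
  have hLam0 : 0 ≤ Lam := logRatio_nonneg n
  have hGL : G ⊆ L := by
    intro x hx
    refine ⟨fun i => ?_, hGball hx⟩
    rcases eq_or_ne x 0 with rfl | hx0
    · simpa using hr0 i
    have h1 : ⟪u i, x⟫ ≤ 1 := (real_inner_le_norm _ _).trans (by
      rw [hu1, one_mul]; exact mem_closedBall_zero_iff.1 (hGball hx))
    refine le_min h1 ?_
    rcases hLam0.eq_or_lt with hl | hl
    · exfalso
      have hneg : ∑ k ∈ Finset.range n, Real.log (1 - (k : ℝ) / n) < 0 := by
        refine (Finset.sum_lt_sum (g := fun _ => (0 : ℝ)) (fun k hk => Real.log_nonpos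
          (one_sub_div_pos (Finset.mem_range.1 hk)).le (sub_le_self _ (by positivity)))
          ⟨1, Finset.mem_range.2 hn, Real.log_neg (one_sub_div_pos hn) ?_⟩).trans_eq (by simp)
        rw [sub_lt_self_iff]; positivity
      have : Lam = -∑ k ∈ Finset.range n, Real.log (1 - (k : ℝ) / n) := rfl
      linarith
    · refine Real.le_sqrt_of_sq_le ((le_div_iff₀ hl).2 (hdir x hx hx0 i))
  set M := (∑ i, c i * r i) / n with hM
  have hnR : (0 : ℝ) < n := by exact_mod_cast hn0
  have hmink : kappa n * (1 - badShare n τ) * (volume K).toReal ^ (n - 1) ≤ (s * M) ^ n := by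
    set L' := toEuclideanLin Tᵀ '' L
    have hLc : IsCompact L := (isCompact_closedBall _ _).inter_left (isClosed_Poly _ _)
    have hL' : L' ⊆ Poly v fun i => ‖y i‖ * r i := by
      rintro _ ⟨x, hx, rfl⟩ i
      rw [inner_toEuclideanLin_transpose]
      change ⟪y i, x⟫ ≤ _
      rw [hyu i, real_inner_smul_left]
      exact mul_le_mul_of_nonneg_left (hx.1 i) (norm_nonneg _)
    have h := minkowskiFirst n N v (fun i => ‖y i‖ * r i) L' hn0 hv hb
      (fun i => mul_nonneg (norm_nonneg _) (hr0 i))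
      (hLc.image (LinearMap.continuous_of_finiteDimensional _))
      (((convex_Poly _ _).inter (convex_closedBall _ _)).linear_image _)
      ⟨0, ⟨fun i => by simpa using hr0 i, by simp⟩, map_zero _⟩ hL'
    have hLvol : (volume G).toReal ≤ (volume L').toReal := by
      rw [volume_image_toEuclideanLin (by rwa [det_transpose])]
      exact ENNReal.toReal_mono hLc.measure_lt_top.ne (measure_mono hGL)
    have hsum' : ∑ i, coneVol v i * (‖y i‖ * r i) = s * M := by
      rw [hM, Finset.sum_div, Finset.mul_sum]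
      refine Finset.sum_congr rfl fun i _ => ?_
      simp only [hc, hbn]
      field_simp
    rw [hsum'] at h
    refine le_trans ?_ h
    exact mul_le_mul_of_nonneg_right (hGvol.trans hLvol) (by positivity)
  -- the balance
  have hM1 : M ≤ 1 := by
    rw [hM, div_le_one hnR]
    calc ∑ i, c i * r i ≤ ∑ i, c i :=
          Finset.sum_le_sum fun i _ => mul_le_of_le_one_right (hF.1 i) (min_le_left _ _)
      _ = n := hcsum
  have hM0 : 0 ≤ M := div_nonneg (Finset.sum_nonneg fun i _ => mul_nonneg (hF.1 i) (hr0 i)) hnR.le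
  have hr2 : ∀ i, r i ^ 2 * Lam ≤ Er - Q i := fun i => by
    have h0 : 0 ≤ Er - Q i := by linarith [hQ0 i]
    have h1 : r i ^ 2 ≤ (Er - Q i) / Lam := by
      refine (pow_le_pow_left₀ (hr0 i) (min_le_right _ _) 2).trans_eq (Real.sq_sqrt ?_)
      exact div_nonneg h0 hLam0
    rcases hLam0.eq_or_lt with hl | hl
    · rw [← hl, mul_zero]; exact h0
    · exact (le_div_iff₀ hl).1 h1
  have hXQ : X = -(1 / (2 * n)) * ∑ i, c i * Q i := by
    simp only [X, hQ, Finset.mul_sum]
    rw [Finset.sum_comm]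
    refine Finset.sum_congr rfl fun i _ => Finset.sum_congr rfl fun k hk => ?_
    have : (k : ℝ) < n := by exact_mod_cast Finset.mem_range.1 hk
    have h2 : (n : ℝ) - k ≠ 0 := by linarith
    field_simp
  have hsumQ : ∑ i, c i * Q i + Lam * ∑ i, c i * r i ^ 2 ≤ n * Er := by
    rw [← hcsum, Finset.sum_mul, Finset.mul_sum, ← Finset.sum_add_distrib]
    refine Finset.sum_le_sum fun i _ => ?_
    nlinarith [mul_le_mul_of_nonneg_left (hr2 i) (hF.1 i)]
  have hkey : (Lam * M ^ 2 - Er) / 2 ≤ X := by
    have h1 : (n : ℝ) * M ^ 2 ≤ ∑ i, c i * r i ^ 2 := by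
      have h0 : 0 ≤ ∑ i, c i * (r i - M) ^ 2 :=
        Finset.sum_nonneg fun i _ => mul_nonneg (hF.1 i) (sq_nonneg _)
      have h2 : ∑ i, c i * (r i - M) ^ 2 =
          ∑ i, c i * r i ^ 2 - 2 * M * ∑ i, c i * r i + (∑ i, c i) * M ^ 2 := by
        rw [Finset.mul_sum, Finset.sum_mul, ← Finset.sum_sub_distrib, ← Finset.sum_add_distrib]
        exact Finset.sum_congr rfl fun i _ => by ring
      have h3 : ∑ i, c i * r i = n * M := by rw [hM]; field_simp
      rw [h2, hcsum, h3] at h0
      linarith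
    have h2 := mul_le_mul_of_nonneg_left h1 hLam0
    have h3 : (∑ i, c i * Q i) / n ≤ Er - Lam * M ^ 2 := by
      rw [div_le_iff₀ hnR]; linarith
    have h4 : -(1 / (2 * (n : ℝ))) * ∑ i, c i * Q i = -((∑ i, c i * Q i) / n) / 2 := by
      field_simp
    rw [hXQ, h4]
    linarith
  have hsV : ∑ i, coneVol v i * ‖y i‖ = s := by
    have h : ∑ i, ‖b i‖ = n * s := hsum
    simp only [hbn, mul_assoc, ← Finset.mul_sum] at h
    exact mul_left_cancel₀ hnR.ne' h
  refine ⟨T, s, M, hT, hs, hsV, hM0, hM1, hmink, le_trans ?_ hlowV⟩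
  exact mul_le_mul_of_nonneg_left (Real.exp_le_exp.2 hkey) (pow_nonneg hs.le n)

/-- The projection volume of a polytope, up to the entropy error. -/
theorem polytope_bound (hPos : ExactPosition) (hZ : ZonoEntropy) (hG : GoodSet) (hS : StepBound)
    (hn : 2 ≤ n) (v : Fin N → E n) (hv : Function.Injective v)
    (hb : Bornology.IsBounded (Poly v fun _ => 1)) {τ : ℝ} (hτ : 0 < τ) (hτ1 : τ ≤ 1) :
    kappa n * (1 - badShare n τ) * Real.exp ((logRatio n - totalErr n τ) / 2) *
        (volume (Poly v fun _ => 1)).toReal ^ (n - 1) ≤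
      (volume (projBody (Poly v fun _ => 1))).toReal := by
  obtain ⟨T, s, M, -, hs, -, hM0, hM1, hmink, hlow⟩ :=
    polytope_core hPos hZ hG hS hn v hv hb hτ hτ1
  refine le_trans ?_ hlow
  set Lam := logRatio n
  have hLn : Lam ≤ n := logRatio_le n
  have hMe : M ≤ Real.exp (M - 1) := by linarith [Real.add_one_le_exp (M - 1)]
  have hexp : M ^ n * Real.exp ((Lam - totalErr n τ) / 2) ≤
      Real.exp ((Lam * M ^ 2 - totalErr n τ) / 2) := by
    refine (mul_le_mul_of_nonneg_right (pow_le_pow_left₀ hM0 hMe n) (Real.exp_pos _).le).trans ?_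
    rw [← Real.exp_nat_mul, ← Real.exp_add]
    refine Real.exp_le_exp.2 ?_
    nlinarith [mul_le_mul_of_nonpos_right hLn (show M - 1 ≤ 0 by linarith),
      mul_nonneg (logRatio_nonneg n) (sq_nonneg (M - 1))]
  calc kappa n * (1 - badShare n τ) * Real.exp ((Lam - totalErr n τ) / 2) *
        (volume (Poly v fun _ => 1)).toReal ^ (n - 1)
      = kappa n * (1 - badShare n τ) * (volume (Poly v fun _ => 1)).toReal ^ (n - 1) *
          Real.exp ((Lam - totalErr n τ) / 2) := by ring
    _ ≤ (s * M) ^ n * Real.exp ((Lam - totalErr n τ) / 2) :=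
        mul_le_mul_of_nonneg_right hmink (Real.exp_pos _).le
    _ = s ^ n * (M ^ n * Real.exp ((Lam - totalErr n τ) / 2)) := by rw [mul_pow]; ring
    _ ≤ _ := mul_le_mul_of_nonneg_left hexp (pow_nonneg hs.le n)

/-- A bound for polytopes with the origin inside passes to all convex bodies. -/
theorem body_of_polytope {D : ℝ} (hD : 0 ≤ D)
    (hpoly : ∀ (M : ℕ) (v : Fin M → E n), Function.Injective v →
      Bornology.IsBounded (Poly v fun _ => 1) →
      D * (volume (Poly v fun _ => 1)).toReal ^ (n - 1) ≤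
        (volume (projBody (Poly v fun _ => 1))).toReal)
    {K : Set (E n)} (hK : IsCompact K) (hKc : Convex ℝ K) (hi : (interior K).Nonempty) :
    D * (volume K).toReal ^ (n - 1) ≤ (volume (projBody K)).toReal := by
  obtain ⟨x₀, hx₀⟩ := hi
  set K' := (fun y => x₀ + y) ⁻¹' K with hK'
  have himg : (fun y => x₀ + y) '' K' = K := Set.image_preimage_eq K (add_left_surjective x₀)
  have hK'c : IsCompact K' := (Homeomorph.addLeft x₀).isCompact_preimage.2 hK
  have hK'x : Convex ℝ K' := by simpa [hK', add_comm] using hKc.translate_preimage_left x₀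
  have h0 : (0 : E n) ∈ interior K' := by
    have h : interior K' = (fun y => x₀ + y) ⁻¹' interior K :=
      ((Homeomorph.addLeft x₀).preimage_interior K).symm
    rw [h]; simpa using hx₀
  have key : ∀ δ : ℝ, 0 < δ →
      D * ((volume K').toReal * ((1 + δ) ^ n)⁻¹) ^ (n - 1) ≤ (volume (projBody K')).toReal := by
    intro δ hδ
    obtain ⟨M, v, hv, -, hKv, hvK⟩ := exists_polytope (N := 1) hK'c hK'x h0 (fun _ => ⊤)
      (fun _ => K') (iInter_const _).symm (fun _ => hK'c.isClosed) (fun _ => hK'x)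
      (fun _ x hx y hy => by
        rw [Submodule.top_orthogonal_eq_bot, Submodule.mem_bot] at hy
        simpa [hy] using hx) hδ
    set c := 1 + δ
    have hc : 0 < c := by positivity
    set w := fun i => c • v i with hw
    have hsubK : Poly w (fun _ => 1) ⊆ K' := by
      intro x hx
      have hcx : c • x ∈ Poly v fun _ => 1 := fun i => by
        have := hx i
        rwa [hw, real_inner_smul_left, ← real_inner_smul_right] at this
      exact (smul_mem_smul_set_iff₀ hc.ne' K' x).1 (hvK hcx)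
    have hb : Bornology.IsBounded (Poly w fun _ => 1) := hK'c.isBounded.subset hsubK
    have h := hpoly M w (fun a b h => hv (smul_right_injective (E n) hc.ne' h)) hb
    have hlow : (volume K').toReal * (c ^ n)⁻¹ ≤ (volume (Poly w fun _ => 1)).toReal := by
      have hsub : c⁻¹ • K' ⊆ Poly w fun _ => 1 := by
        rintro _ ⟨x, hx, rfl⟩ i
        rw [hw, real_inner_smul_left, real_inner_smul_right, ← mul_assoc,
          mul_inv_cancel₀ hc.ne', one_mul]
        exact hKv x hx i
      refine le_trans (le_of_eq ?_) (ENNReal.toReal_mono hb.measure_lt_top.ne (measure_mono hsub))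
      rw [Measure.addHaar_smul_of_nonneg volume (inv_nonneg.2 hc.le), ENNReal.toReal_mul,
        finrank_euclideanSpace_fin, ENNReal.toReal_ofReal (by positivity), inv_pow, mul_comm]
    refine le_trans ?_ (h.trans (ENNReal.toReal_mono (isBounded_projBody K').measure_lt_top.ne
      (measure_mono (projBody_mono hK'c hsubK))))
    gcongr
  have hlim : D * (volume K').toReal ^ (n - 1) ≤ (volume (projBody K')).toReal := by
    refine le_of_tendsto
      (f := fun δ : ℝ => D * ((volume K').toReal * ((1 + δ) ^ n)⁻¹) ^ (n - 1))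
      (x := 𝓝[>] (0 : ℝ)) ?_ (eventually_nhdsWithin_of_forall fun δ hδ => key δ hδ)
    have hcont : ContinuousAt
        (fun δ : ℝ => D * ((volume K').toReal * ((1 + δ) ^ n)⁻¹) ^ (n - 1)) 0 :=
      continuousAt_const.mul
        ((continuousAt_const.mul (ContinuousAt.inv₀ (by fun_prop) (by simp))).pow _)
    simpa using hcont.tendsto.mono_left nhdsWithin_le_nhds
  rwa [← projBody_vadd K' x₀, himg, show (volume K').toReal = (volume K).toReal by
    rw [hK', measure_preimage_add]] at hlim

end Vale.Agent.P237.Asymp
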