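import Vale.Agent.P237.Asymp.Assembly

/-!
P237: the errors of the entropy bound are subexponential.
-/

noncomputable section

open MeasureTheory Set Matrix Filter
open scoped RealInnerProductSpace ENNReal Topology

namespace Vale.Agent.P237.Asymp

lemma factorial_exp_le : ∀ n : ℕ, 1 ≤ n →
    (n.factorial : ℝ) * Real.exp n ≤ Real.exp 1 * n * (n : ℝ) ^ n := by
  intro n hn
  induction n, hn using Nat.le_induction with
  | base => simp
  | succ k hk ih =>
    have hk0 : (0 : ℝ) < k := by exact_mod_cast hk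
    have h1 : ((k : ℝ) / (k + 1)) ^ (k + 1) ≤ Real.exp (-1) := by
      have h := Real.add_one_le_exp (-1 / ((k : ℝ) + 1))
      rw [show -1 / ((k : ℝ) + 1) + 1 = k / (k + 1) by field_simp; ring] at h
      refine (pow_le_pow_left₀ (by positivity) h _).trans (le_of_eq ?_)
      rw [← Real.exp_nat_mul]; congr 1; push_cast; field_simp
    rw [div_pow, div_le_iff₀ (by positivity), Real.exp_neg, inv_mul_eq_div,
      le_div_iff₀ (Real.exp_pos 1)] at h1
    rw [Nat.factorial_succ]
    push_cast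
    rw [Real.exp_add]
    calc ((k : ℝ) + 1) * k.factorial * (Real.exp k * Real.exp 1)
        = ((k : ℝ) + 1) * Real.exp 1 * (k.factorial * Real.exp k) := by ring
      _ ≤ ((k : ℝ) + 1) * Real.exp 1 * (Real.exp 1 * k * (k : ℝ) ^ k) := by gcongr
      _ = ((k : ℝ) + 1) * Real.exp 1 * ((k : ℝ) ^ (k + 1) * Real.exp 1) := by ring
      _ ≤ ((k : ℝ) + 1) * Real.exp 1 * ((k : ℝ) + 1) ^ (k + 1) := by gcongr
      _ = _ := by ring

lemma logRatio_ge {n : ℕ} (hn : 1 ≤ n) : (n : ℝ) - 1 - Real.log n ≤ logRatio n := by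
  have hnR : (0 : ℝ) < n := by exact_mod_cast hn
  have hprod : ∏ k ∈ Finset.range n, (1 - (k : ℝ) / n) = (n.factorial : ℝ) / (n : ℝ) ^ n := by
    rw [← Finset.prod_range_reflect, ← Finset.prod_range_add_one_eq_factorial, Nat.cast_prod,
      show (n : ℝ) ^ n = ∏ _k ∈ Finset.range n, (n : ℝ) by simp, ← Finset.prod_div_distrib]
    refine Finset.prod_congr rfl fun k hk => ?_
    have hk' := Finset.mem_range.1 hk
    rw [show n - 1 - k = n - (k + 1) by omega, Nat.cast_sub (by omega)]
    field_simp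
    push_cast
    ring
  rw [logRatio, ← Real.log_prod (fun k hk => (one_sub_div_pos (Finset.mem_range.1 hk)).ne'), hprod]
  have h := Real.log_le_log (by positivity) (factorial_exp_le n hn)
  rw [Real.log_mul (by positivity) (Real.exp_pos _).ne', Real.log_exp,
    Real.log_mul (by positivity) (by positivity), Real.log_mul (Real.exp_pos 1).ne' hnR.ne',
    Real.log_exp] at h
  rw [Real.log_div (by positivity) (by positivity)]
  linarith

lemma totalErr_le {n : ℕ} {τ : ℝ} (hτ : 0 ≤ τ) :
    totalErr n τ ≤ n * ((1 + Real.log n) * stepErr τ) := by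
  have h : ∑ k ∈ Finset.range n, ((n : ℝ) - k)⁻¹ = (harmonic n : ℝ) := by
    rw [harmonic, Rat.cast_sum, ← Finset.sum_range_reflect]
    refine Finset.sum_congr rfl fun k hk => ?_
    have hk' := Finset.mem_range.1 hk
    rw [show n - 1 - k = n - (k + 1) by omega, Nat.cast_sub (by omega), sub_sub_cancel]
    push_cast
    rfl
  rw [totalErr, ← Finset.sum_mul, mul_comm (n : ℝ), mul_assoc, mul_comm]
  simp only [div_eq_mul_inv, ← Finset.mul_sum, h]
  calc stepErr τ * ((n : ℝ) * (harmonic n : ℝ))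
      ≤ stepErr τ * ((n : ℝ) * (1 + Real.log n)) := by
        gcongr
        · exact stepErr_nonneg hτ
        · exact harmonic_le_one_add_log n
    _ = _ := by ring

lemma tendsto_poly_exp (k : ℕ) {a : ℝ} (ha : 0 < a) :
    Tendsto (fun y : ℝ => y ^ k * Real.exp (-a * y)) atTop (𝓝 0) := by
  simpa using tendsto_rpow_mul_exp_neg_mul_atTop_nhds_zero (k : ℝ) a ha

/-- With the threshold `(√n)⁻¹`, both losses are negligible. -/
theorem eventually_small {ε : ℝ} (hε : 0 < ε) :
    ∀ᶠ n : ℕ in atTop, badShare n (√(n : ℝ))⁻¹ ≤ 1 / 2 ∧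
      totalErr n (√(n : ℝ))⁻¹ + 1 + Real.log n ≤ 2 * ε * n := by
  have hg : Tendsto (fun y : ℝ => (1 + y) * (Real.exp (-(1 / 2) * y) +
      (y + 2) * (5 * Real.exp (-(1 / 4) * y))) + (1 + y) * Real.exp (-1 * y)) atTop (𝓝 0) := by
    have h := (((tendsto_poly_exp 0 (a := 1 / 2) (by norm_num)).add
      (tendsto_poly_exp 1 (a := 1 / 2) (by norm_num))).add
      ((((tendsto_poly_exp 2 (a := 1 / 4) (by norm_num)).const_mul 5).add
      ((tendsto_poly_exp 1 (a := 1 / 4) (by norm_num)).const_mul 15)).add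
      ((tendsto_poly_exp 0 (a := 1 / 4) (by norm_num)).const_mul 10))).add
      ((tendsto_poly_exp 0 (a := 1) one_pos).add (tendsto_poly_exp 1 (a := 1) one_pos))
    simp only [add_zero, mul_zero] at h
    refine h.congr fun y => ?_
    ring
  have hb : Tendsto (fun x : ℝ => 3 * (x ^ 2 + 1) ^ 3 * Real.exp (-(1 / 8) * x)) atTop (𝓝 0) := by
    have h := ((((tendsto_poly_exp 6 (a := 1 / 8) (by norm_num)).const_mul 3).add
      ((tendsto_poly_exp 4 (a := 1 / 8) (by norm_num)).const_mul 9)).add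
      ((tendsto_poly_exp 2 (a := 1 / 8) (by norm_num)).const_mul 9)).add
      ((tendsto_poly_exp 0 (a := 1 / 8) (by norm_num)).const_mul 3)
    simp only [add_zero, mul_zero] at h
    refine h.congr fun y => ?_
    ring
  have e1 := ((hg.comp Real.tendsto_log_atTop).comp tendsto_natCast_atTop_atTop).eventually
    (eventually_le_nhds (show (0 : ℝ) < 2 * ε by positivity))
  have e2 := ((hb.comp Real.tendsto_sqrt_atTop).comp tendsto_natCast_atTop_atTop).eventually
    (eventually_le_nhds (show (0 : ℝ) < 1 / 2 by norm_num))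
  filter_upwards [e1, e2, eventually_ge_atTop 1] with n h1 h2 hn
  simp only [Function.comp] at h1 h2
  have hnR : (1 : ℝ) ≤ n := by exact_mod_cast hn
  set x := √(n : ℝ)
  have hx : 1 ≤ x := Real.one_le_sqrt.2 hnR
  have hxn : x ^ 2 = n := Real.sq_sqrt (by linarith)
  constructor
  · refine le_trans ?_ h2
    have hhalf : (1 / 2 : ℝ) ^ n ≤ Real.exp (-(1 / 8) * x) := by
      have he : (1 / 2 : ℝ) ≤ Real.exp (-(1 / 8)) := by
        linarith [Real.add_one_le_exp (-(1 / 8) : ℝ)]
      refine (pow_le_pow_left₀ (by norm_num) he n).trans ?_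
      rw [← Real.exp_nat_mul]
      exact Real.exp_le_exp.2 (by nlinarith)
    have hexp : Real.exp (-((n : ℝ) * x⁻¹) / 8) = Real.exp (-(1 / 8) * x) := by
      congr 1; rw [← hxn]; field_simp
    rw [badShare, hexp, div_inv_eq_mul, hxn]
    calc ((n : ℝ) + 1) ^ 2 * ((1 / 2) ^ n + 2 * Real.exp (-(1 / 8) * x)) * x
        ≤ ((n : ℝ) + 1) ^ 2 * (Real.exp (-(1 / 8) * x) + 2 * Real.exp (-(1 / 8) * x)) *
            ((n : ℝ) + 1) := by
          gcongr
          nlinarith
      _ = _ := by ring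
  · set y := Real.log n with hy
    have hy0 : 0 ≤ y := Real.log_nonneg hnR
    have hx0 : (0 : ℝ) < x := by linarith
    have hτ : x⁻¹ = Real.exp (-(1 / 2) * y) := by
      rw [← Real.exp_log (inv_pos.2 hx0), Real.log_inv, Real.log_sqrt (by linarith), hy]
      congr 1; ring
    have hsqrt : 3 * √(x⁻¹ + x⁻¹) ≤ 5 * Real.exp (-(1 / 4) * y) := by
      have he : √(Real.exp (-(1 / 2) * y)) = Real.exp (-(1 / 4) * y) := by
        rw [← Real.exp_half]; congr 1; ring
      rw [← two_mul, Real.sqrt_mul zero_le_two, hτ, he, ← mul_assoc]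
      gcongr
      nlinarith [Real.sq_sqrt (zero_le_two (α := ℝ)), Real.sqrt_nonneg (2 : ℝ)]
    have habs : |Real.log x⁻¹| + 2 ≤ y + 2 := by
      rw [hτ, Real.log_exp, abs_of_nonpos (by linarith)]; linarith
    have hstep : stepErr x⁻¹ ≤ Real.exp (-(1 / 2) * y) +
        (y + 2) * (5 * Real.exp (-(1 / 4) * y)) := by
      rw [stepErr]
      exact add_le_add hτ.le (mul_le_mul habs hsqrt (by positivity) (by linarith))
    have hlast : 1 + y = n * ((1 + y) * Real.exp (-1 * y)) := by
      rw [neg_one_mul, Real.exp_neg, hy, Real.exp_log (by linarith)]; field_simp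
    calc totalErr n x⁻¹ + 1 + y ≤ n * ((1 + y) * stepErr x⁻¹) + (1 + y) := by
          linarith [totalErr_le (n := n) (τ := x⁻¹) (by positivity)]
      _ ≤ n * ((1 + y) * (Real.exp (-(1 / 2) * y) + (y + 2) * (5 * Real.exp (-(1 / 4) * y)))) +
          n * ((1 + y) * Real.exp (-1 * y)) := by
          gcongr
          exact hlast.le
      _ = n * ((1 + y) * (Real.exp (-(1 / 2) * y) + (y + 2) * (5 * Real.exp (-(1 / 4) * y))) +
          (1 + y) * Real.exp (-1 * y)) := by ring
      _ ≤ n * (2 * ε) := by gcongr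
      _ = _ := by ring

/-- The asymptotic Petty inequality, from the blocks. -/
theorem asymptotic_petty (hPos : ExactPosition) (hZ : ZonoEntropy) (hG : GoodSet) (hS : StepBound)
    {ε : ℝ} (hε : 0 < ε) :
    ∃ n₀ : ℕ, ∀ n, n₀ ≤ n → ∀ K : Set (E n), IsCompact K → Convex ℝ K → (interior K).Nonempty →
      Real.exp (-(ε * n)) * (kappa (n - 1) ^ n * kappa n ^ ((2 : ℤ) - n)) *
        (volume K).toReal ^ (n - 1) ≤ (volume (projBody K)).toReal := by
  obtain ⟨n₁, hn₁⟩ := eventually_atTop.1 (eventually_small hε)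
  refine ⟨max n₁ 4, fun n hn K hK hKc hi => ?_⟩
  have hn4 : 4 ≤ n := le_of_max_le_right hn
  obtain ⟨hbad, herr⟩ := hn₁ n (le_of_max_le_left hn)
  set τ := (√(n : ℝ))⁻¹
  have hnR : (4 : ℝ) ≤ n := by exact_mod_cast hn4
  have hτ : 0 < τ := inv_pos.2 (Real.sqrt_pos.2 (by linarith))
  have hτ1 : τ ≤ 1 := inv_le_one_of_one_le₀ (Real.one_le_sqrt.2 (by linarith))
  have hk : 0 < kappa n :=
    ENNReal.toReal_pos (Metric.measure_ball_pos volume _ one_pos).ne' measure_ball_lt_top.ne
  set D := kappa n * (1 - badShare n τ) * Real.exp ((logRatio n - totalErr n τ) / 2)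
  have hD : 0 ≤ D := mul_nonneg (mul_nonneg hk.le (by linarith)) (Real.exp_pos _).le
  have h := body_of_polytope hD
    (fun M v hv hb => polytope_bound hPos hZ hG hS (by omega : 2 ≤ n) v hv hb hτ hτ1) hK hKc hi
  refine le_trans (mul_le_mul_of_nonneg_right ?_ (by positivity)) h
  have hz : kappa n ^ ((2 : ℤ) - n) = kappa n / kappa n ^ (n - 1) := by
    rw [← zpow_natCast (kappa n) (n - 1), Nat.cast_sub (by omega)]
    nth_rw 2 [← zpow_one (kappa n)]
    rw [← zpow_sub₀ hk.ne']
    congr 1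
    push_cast
    ring
  have hball : kappa (n - 1) ^ n / kappa n ^ (n - 1) ≤ Real.exp ((n : ℝ) / 2) / 2 := by
    rw [div_le_iff₀ (pow_pos hk _)]
    refine ((ballConst n hn4).le).trans_eq ?_
    rw [← Real.exp_half, ← Real.exp_nat_mul, mul_comm, mul_one_div]
  rw [hz]
  have hlog := logRatio_ge (n := n) (by omega)
  calc Real.exp (-(ε * n)) * (kappa (n - 1) ^ n * (kappa n / kappa n ^ (n - 1)))
      = kappa n * (kappa (n - 1) ^ n / kappa n ^ (n - 1)) * Real.exp (-(ε * n)) := by ring
    _ ≤ kappa n * (Real.exp ((n : ℝ) / 2) / 2) * Real.exp (-(ε * n)) := by gcongr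
    _ = kappa n * (1 / 2) * Real.exp ((n : ℝ) / 2 - ε * n) := by
        rw [sub_eq_add_neg, Real.exp_add]; ring
    _ ≤ D := by
        refine mul_le_mul (mul_le_mul_of_nonneg_left (by linarith) hk.le)
          (Real.exp_le_exp.2 (by linarith)) (Real.exp_pos _).le
          (mul_nonneg hk.le (by linarith))

end Vale.Agent.P237.Asymp
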