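import Vale.Agent.P237.Asymp.Pins

/-!
P237: elementary facts about the chain of orthonormal lists.
-/

noncomputable section

open MeasureTheory Set Matrix
open scoped RealInnerProductSpace ENNReal

namespace Vale.Agent.P237.Asymp

variable {n m : ℕ} {c : Fin m → ℝ} {u : Fin m → E n} {es : List (E n)}

lemma perp_nil (x : E n) : perp [] x = x := by simp [perp]

lemma perp_cons (e : E n) (es : List (E n)) (x : E n) :
    perp (e :: es) x = perp es x - ⟪e, x⟫ • e := by
  simp only [perp, List.map_cons, List.sum_cons]; abel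

lemma inner_perp_cons (e : E n) (es : List (E n)) (x w : E n) :
    ⟪perp (e :: es) x, w⟫ = ⟪perp es x, w⟫ - ⟪e, x⟫ * ⟪e, w⟫ := by
  rw [perp_cons, inner_sub_left, real_inner_smul_left]

lemma inner_perp (es : List (E n)) (x w : E n) :
    ⟪perp es x, w⟫ = ⟪x, w⟫ - (es.map fun e => ⟪e, x⟫ * ⟪e, w⟫).sum := by
  induction es with
  | nil => simp [perp]
  | cons e es ih => rw [inner_perp_cons, ih, List.map_cons, List.sum_cons]; ring

lemma inner_perp_comm (es : List (E n)) (x w : E n) : ⟪perp es x, w⟫ = ⟪perp es w, x⟫ := by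
  simp only [inner_perp, real_inner_comm w x, mul_comm (⟪_, x⟫)]

lemma perp_add (es : List (E n)) (x y : E n) : perp es (x + y) = perp es x + perp es y := by
  refine ext_inner_right ℝ fun w => ?_
  rw [inner_perp_comm, inner_add_right, inner_add_left, inner_perp_comm es x, inner_perp_comm es y]

lemma perp_smul (es : List (E n)) (a : ℝ) (x : E n) : perp es (a • x) = a • perp es x := by
  refine ext_inner_right ℝ fun w => ?_
  rw [inner_perp_comm, real_inner_smul_right, real_inner_smul_left, inner_perp_comm es x]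

lemma Ortho.nil : Ortho ([] : List (E n)) := ⟨List.Pairwise.nil, by simp⟩

lemma Ortho.tail {e : E n} (h : Ortho (e :: es)) : Ortho es :=
  ⟨(List.pairwise_cons.1 h.1).2, fun f hf => h.2 f (List.mem_cons_of_mem _ hf)⟩

lemma Ortho.inner_mem_perp (h : Ortho es) : ∀ e ∈ es, ∀ x, ⟪e, perp es x⟫ = 0 := by
  induction es with
  | nil => simp
  | cons a es ih =>
    have hpw := List.pairwise_cons.1 h.1
    have ha : ∀ x, ⟪a, perp es x⟫ = ⟪a, x⟫ := fun x => by
      rw [real_inner_comm, inner_perp, real_inner_comm x a]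
      have : (es.map fun e => ⟪e, x⟫ * ⟪e, a⟫).sum = 0 := List.sum_eq_zero fun y hy => by
        obtain ⟨e, he, rfl⟩ := List.mem_map.1 hy
        rw [real_inner_comm a e, hpw.1 e he, mul_zero]
      rw [this, sub_zero]
    intro e he x
    rw [perp_cons, inner_sub_right, real_inner_smul_right]
    rcases List.mem_cons.1 he with rfl | he'
    · rw [ha, real_inner_self_eq_norm_sq, h.2 e (List.mem_cons_self ..)]; ring
    · rw [ih h.tail e he', real_inner_comm a e, hpw.1 e he', mul_zero, sub_zero]

lemma Ortho.inner_perp_perp (h : Ortho es) (x w : E n) :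
    ⟪perp es x, perp es w⟫ = ⟪perp es x, w⟫ := by
  rw [real_inner_comm, inner_perp, real_inner_comm (perp es x) w]
  have : (es.map fun e => ⟪e, w⟫ * ⟪e, perp es x⟫).sum = 0 := List.sum_eq_zero fun y hy => by
    obtain ⟨e, he, rfl⟩ := List.mem_map.1 hy
    rw [h.inner_mem_perp e he, mul_zero]
  rw [this, sub_zero]

lemma Ortho.norm_perp_sq (h : Ortho es) (x : E n) :
    ‖perp es x‖ ^ 2 = ‖x‖ ^ 2 - (es.map fun e => ⟪e, x⟫ ^ 2).sum := by
  rw [← real_inner_self_eq_norm_sq, h.inner_perp_perp, inner_perp, real_inner_self_eq_norm_sq]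
  simp only [sq]

lemma Ortho.norm_perp_le (h : Ortho es) (x : E n) : ‖perp es x‖ ≤ ‖x‖ := by
  refine le_of_pow_le_pow_left₀ two_ne_zero (norm_nonneg _) ?_
  rw [h.norm_perp_sq]
  linarith [List.sum_nonneg (l := es.map fun e => ⟪e, x⟫ ^ 2)
    (fun y hy => by obtain ⟨e, -, rfl⟩ := List.mem_map.1 hy; positivity)]

lemma Ortho.nxt (h : Ortho es) {x : E n} (hx : perp es x ≠ 0) : Ortho (Asymp.nxt es x) := by
  refine ⟨List.pairwise_cons.2 ⟨fun e he => ?_, h.1⟩, fun e he => ?_⟩
  · rw [real_inner_smul_left, real_inner_comm, h.inner_mem_perp e he, mul_zero]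
  · rcases List.mem_cons.1 he with rfl | he'
    · rw [norm_smul, norm_inv, norm_norm, inv_mul_cancel₀ (norm_ne_zero_iff.2 hx)]
    · exact h.2 e he'

lemma length_nxt (es : List (E n)) (x : E n) : (nxt es x).length = es.length + 1 := rfl

lemma Frame.sum_sq (hF : Frame c u) (x : E n) : ∑ i, c i * ⟪u i, x⟫ ^ 2 = ‖x‖ ^ 2 := by
  have h := congrArg (fun y => ⟪y, x⟫) (hF.2.2 x)
  simp only [sum_inner, real_inner_self_eq_norm_sq, real_inner_smul_left] at h
  rw [← h]
  exact Finset.sum_congr rfl fun i _ => by ring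

lemma Frame.sum_weight (hF : Frame c u) : ∑ i, c i = (n : ℝ) := by
  have h : ∀ i, ∑ j, c i * ⟪u i, EuclideanSpace.single j (1 : ℝ)⟫ ^ 2 = c i := by
    intro i
    rw [← Finset.mul_sum]
    have : ∑ j, ⟪u i, EuclideanSpace.single j (1 : ℝ)⟫ ^ 2 = ‖u i‖ ^ 2 := by
      simp [EuclideanSpace.norm_sq_eq, EuclideanSpace.inner_single_right]
    rw [this, hF.2.1 i, one_pow, mul_one]
  calc ∑ i, c i = ∑ i, ∑ j, c i * ⟪u i, EuclideanSpace.single j (1 : ℝ)⟫ ^ 2 :=
        Finset.sum_congr rfl fun i _ => (h i).symm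
    _ = ∑ j : Fin n, ‖EuclideanSpace.single j (1 : ℝ)‖ ^ 2 := by
        rw [Finset.sum_comm]; exact Finset.sum_congr rfl fun j _ => hF.sum_sq _
    _ = n := by simp

lemma Frame.sum_perp_sq (hF : Frame c u) (h : Ortho es) :
    ∑ i, c i * ‖perp es (u i)‖ ^ 2 = (n : ℝ) - es.length := by
  induction es with
  | nil => simp [perp_nil, hF.2.1, hF.sum_weight]
  | cons e es ih =>
    have hs : ∀ i, c i * ‖perp (e :: es) (u i)‖ ^ 2 =
        c i * ‖perp es (u i)‖ ^ 2 - c i * ⟪u i, e⟫ ^ 2 := fun i => by
      rw [h.norm_perp_sq, h.tail.norm_perp_sq, List.map_cons, List.sum_cons, real_inner_comm e]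
      ring
    rw [Finset.sum_congr rfl fun i _ => hs i, Finset.sum_sub_distrib, ih h.tail, hF.sum_sq,
      h.2 e (List.mem_cons_self ..), List.length_cons]
    push_cast; ring

lemma prob_nonneg (hF : Frame c u) (hlen : es.length ≤ n) (i : Fin m) : 0 ≤ prob c u es i := by
  refine div_nonneg (mul_nonneg (hF.1 i) (sq_nonneg _)) ?_
  rw [sub_nonneg]; exact_mod_cast hlen

lemma sum_prob (hF : Frame c u) (h : Ortho es) (hlen : es.length < n) :
    ∑ i, prob c u es i = 1 := by
  simp only [prob, ← Finset.sum_div, hF.sum_perp_sq h]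
  exact div_self (sub_ne_zero.2 (by exact_mod_cast hlen.ne'))

lemma chain_add (k : ℕ) (es : List (E n)) (f g : List (E n) → ℝ) :
    chain c u k es (fun fs => f fs + g fs) = chain c u k es f + chain c u k es g := by
  induction k generalizing es with
  | zero => rfl
  | succ k ih => simp only [chain, ih, mul_add, Finset.sum_add_distrib]

lemma chain_const_mul (k : ℕ) (es : List (E n)) (a : ℝ) (f : List (E n) → ℝ) :
    chain c u k es (fun fs => a * f fs) = a * chain c u k es f := by
  induction k generalizing es with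
  | zero => rfl
  | succ k ih => simp only [chain, ih, Finset.mul_sum, mul_left_comm]

/-- Only the orthonormal lists of the right length matter. -/
lemma chain_mono (hF : Frame c u) {f g : List (E n) → ℝ} (k : ℕ) (es : List (E n))
    (h : Ortho es) (hlen : es.length + k ≤ n)
    (hfg : ∀ fs, Ortho fs → fs.length = es.length + k → f fs ≤ g fs) :
    chain c u k es f ≤ chain c u k es g := by
  induction k generalizing es with
  | zero => exact hfg es h rfl
  | succ k ih =>
    refine Finset.sum_le_sum fun i _ => ?_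
    by_cases hx : perp es (u i) = 0
    · simp [prob, hx]
    · refine mul_le_mul_of_nonneg_left (ih _ (h.nxt hx) (by rw [length_nxt]; omega) fun fs ho hl =>
        hfg fs ho (by rw [hl, length_nxt]; omega)) (prob_nonneg hF (by omega) i)

lemma chain_congr (hF : Frame c u) {f g : List (E n) → ℝ} (k : ℕ) (es : List (E n))
    (h : Ortho es) (hlen : es.length + k ≤ n)
    (hfg : ∀ fs, Ortho fs → fs.length = es.length + k → f fs = g fs) :
    chain c u k es f = chain c u k es g :=
  le_antisymm (chain_mono hF k es h hlen fun fs a b => (hfg fs a b).le)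
    (chain_mono hF k es h hlen fun fs a b => (hfg fs a b).ge)

lemma chain_const (hF : Frame c u) (k : ℕ) (es : List (E n)) (h : Ortho es)
    (hlen : es.length + k ≤ n) (a : ℝ) : chain c u k es (fun _ => a) = a := by
  induction k generalizing es with
  | zero => rfl
  | succ k ih =>
    have hterm : ∀ i, prob c u es i * chain c u k (nxt es (u i)) (fun _ => a) =
        prob c u es i * a := fun i => by
      by_cases hx : perp es (u i) = 0
      · simp [prob, hx]
      · rw [ih _ (h.nxt hx) (by rw [length_nxt]; omega)]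
    simp only [chain, hterm, ← Finset.sum_mul, sum_prob hF h (show es.length < n by omega), one_mul]

lemma chain_nonneg (hF : Frame c u) {f : List (E n) → ℝ} (k : ℕ) (es : List (E n)) (h : Ortho es)
    (hlen : es.length + k ≤ n) (hf : ∀ fs, Ortho fs → fs.length = es.length + k → 0 ≤ f fs) :
    0 ≤ chain c u k es f :=
  (chain_const hF k es h hlen 0).symm.le.trans (chain_mono hF k es h hlen hf)

lemma far_nonneg (τ : ℝ) (x : E n) (es : List (E n)) : 0 ≤ far τ x es :=
  indicator_nonneg (fun _ _ => zero_le_one) es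

end Vale.Agent.P237.Asymp
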