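import Vale.Agent.P237.Asymp.Base

/-!
P237: the chain is a martingale and its variance is controlled by the recorded coefficients.
-/

noncomputable section

open MeasureTheory Set Matrix
open scoped RealInnerProductSpace ENNReal

namespace Vale.Agent.P237.Asymp

variable {n m : ℕ} {c : Fin m → ℝ} {u : Fin m → E n} {es : List (E n)}

private lemma bilin (hF : Frame c u) (a b : E n) : ∑ i, c i * ⟪u i, a⟫ * ⟪u i, b⟫ = ⟪a, b⟫ := by
  have h := congrArg (fun y => ⟪y, b⟫) (hF.2.2 a)
  simp only [sum_inner, real_inner_smul_left] at h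
  exact h

private lemma inner_nxt (es : List (E n)) (v x w : E n) :
    ⟪perp (nxt es v) x, w⟫ = ⟪perp es x, w⟫ -
      ‖perp es v‖⁻¹ ^ 2 * (⟪v, perp es x⟫ * ⟪v, perp es w⟫) := by
  rw [nxt, inner_perp_cons, real_inner_smul_left, real_inner_smul_left,
    inner_perp_comm es v x, inner_perp_comm es v w, real_inner_comm v (perp es x),
    real_inner_comm v (perp es w)]
  ring

private lemma step_mean (hF : Frame c u) (h : Ortho es) (hlen : es.length < n) (x w : E n) :
    ∑ i, prob c u es i * ⟪perp (nxt es (u i)) x, w⟫ =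
      (1 - 1 / ((n : ℝ) - es.length)) * ⟪perp es x, w⟫ := by
  have hterm : ∀ i, prob c u es i * ⟪perp (nxt es (u i)) x, w⟫ =
      prob c u es i * ⟪perp es x, w⟫ -
        c i * ⟪u i, perp es x⟫ * ⟪u i, perp es w⟫ / ((n : ℝ) - es.length) := by
    intro i
    rw [inner_nxt, mul_sub, prob]
    by_cases hx : perp es (u i) = 0
    · have h0 : ⟪u i, perp es x⟫ = 0 := by
        rw [real_inner_comm, inner_perp_comm, hx, inner_zero_left]
      simp [h0]
    · have := norm_ne_zero_iff.2 hx
      field_simp
  rw [Finset.sum_congr rfl fun i _ => hterm i, Finset.sum_sub_distrib, ← Finset.sum_mul,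
    sum_prob hF h hlen, ← Finset.sum_div, bilin hF, h.inner_perp_perp]
  ring

private lemma chain_mean (hF : Frame c u) (x w : E n) (k : ℕ) : ∀ es : List (E n), Ortho es →
    es.length + k ≤ n → chain c u k es (fun fs => ⟪perp fs x, w⟫) =
      (1 - (k : ℝ) / ((n : ℝ) - es.length)) * ⟪perp es x, w⟫ := by
  induction k with
  | zero => intro es _ _; simp [chain]
  | succ k ih =>
    intro es h hlen
    have hterm : ∀ i, prob c u es i * chain c u k (nxt es (u i)) (fun fs => ⟪perp fs x, w⟫) =
        (1 - (k : ℝ) / ((n : ℝ) - (es.length + 1))) *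
          (prob c u es i * ⟪perp (nxt es (u i)) x, w⟫) := fun i => by
      by_cases hx : perp es (u i) = 0
      · simp [prob, hx]
      · rw [ih _ (h.nxt hx) (by rw [length_nxt]; omega), length_nxt]
        push_cast
        ring
    rw [chain, Finset.sum_congr rfl fun i _ => hterm i, ← Finset.mul_sum,
      step_mean hF h (show es.length < n by omega), ← mul_assoc]
    congr 1
    rcases Nat.eq_zero_or_pos k with rfl | hk
    · simp
    · have h1 : (es.length : ℝ) + (k : ℝ) + 1 ≤ n := by exact_mod_cast (show _ by omega : es.length + k + 1 ≤ n)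
      have h2 : (1 : ℝ) ≤ k := by exact_mod_cast hk
      have h3 : (n : ℝ) - es.length ≠ 0 := by linarith
      have h4 : (n : ℝ) - (es.length + 1) ≠ 0 := by linarith
      push_cast
      field_simp
      ring

theorem chainMean : ChainMean := by
  intro n m c u k x w hF hk
  simpa [perp_nil] using chain_mean hF x w k [] Ortho.nil (by simpa using hk)

/-- The sum of the products of the squared coefficients. -/
private def coefSum (x w : E n) (es : List (E n)) : ℝ :=
  (es.map fun e => ⟪e, x⟫ ^ 2 * ⟪e, w⟫ ^ 2).sum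

private lemma chain_var (hF : Frame c u) (x w : E n) (k : ℕ) : ∀ es : List (E n), Ortho es →
    es.length + k ≤ n → chain c u k es
      (fun fs => (⟪perp fs x, w⟫ - (1 - (k : ℝ) / ((n : ℝ) - es.length)) * ⟪perp es x, w⟫) ^ 2) ≤
      chain c u k es (coefSum x w) - coefSum x w es := by
  induction k with
  | zero => intro es _ _; simp [chain]
  | succ k ih =>
    intro es h hlen
    set X := ⟪perp es x, w⟫
    set a' : ℝ := 1 - (k : ℝ) / ((n : ℝ) - (es.length + 1))
    set b : ℝ := (1 - ((k + 1 : ℕ) : ℝ) / ((n : ℝ) - es.length)) * X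
    have hkn : (k : ℝ) ≤ (n : ℝ) - (es.length + 1) := by
      have : (es.length : ℝ) + (k : ℝ) + 1 ≤ n := by
        exact_mod_cast (show _ by omega : es.length + k + 1 ≤ n)
      linarith
    have ha : a' ^ 2 ≤ 1 := by
      have e1 : 0 ≤ (k : ℝ) / ((n : ℝ) - (es.length + 1)) :=
        div_nonneg (Nat.cast_nonneg k) ((Nat.cast_nonneg k).trans hkn)
      have e2 : (k : ℝ) / ((n : ℝ) - (es.length + 1)) ≤ 1 := div_le_one_of_le₀ hkn
        ((Nat.cast_nonneg k).trans hkn)
      simp only [a']
      nlinarith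
    -- the children
    set Y : Fin m → ℝ := fun i => ⟪perp (nxt es (u i)) x, w⟫
    set T : Fin m → ℝ := fun i => (X - Y i) ^ 2
    have hchild : ∀ i, prob c u es i * chain c u k (nxt es (u i))
        (fun fs => (⟪perp fs x, w⟫ - b) ^ 2) ≤ prob c u es i *
          (chain c u k (nxt es (u i)) (coefSum x w) - coefSum x w es - T i + (a' * Y i - b) ^ 2) := by
      intro i
      by_cases hx : perp es (u i) = 0
      · simp [prob, hx]
      refine mul_le_mul_of_nonneg_left ?_ (prob_nonneg hF (by omega) i)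
      have ho := h.nxt hx
      have hl : (nxt es (u i)).length + k ≤ n := by rw [length_nxt]; omega
      have hmean : chain c u k (nxt es (u i)) (fun fs => ⟪perp fs x, w⟫) = a' * Y i := by
        rw [chain_mean hF x w k _ ho hl, length_nxt]
        simp [a', Y]
      have hv := ih _ ho hl
      rw [length_nxt, show (1 - (k : ℝ) / ((n : ℝ) - ((es.length + 1 : ℕ) : ℝ))) *
        ⟪perp (nxt es (u i)) x, w⟫ = a' * Y i by simp [a', Y]] at hv
      have hS : coefSum x w (nxt es (u i)) = T i + coefSum x w es := by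
        simp only [T, Y, X, nxt, inner_perp_cons, coefSum, List.map_cons, List.sum_cons]
        ring
      have hsplit : (fun fs => (⟪perp fs x, w⟫ - b) ^ 2) = fun fs =>
          (⟪perp fs x, w⟫ - a' * Y i) ^ 2 +
            (2 * (a' * Y i - b) * ⟪perp fs x, w⟫ + (b ^ 2 - (a' * Y i) ^ 2)) := by
        funext fs; ring
      rw [hsplit, chain_add, chain_add, chain_const_mul, hmean, chain_const hF k _ ho hl]
      rw [hS] at hv
      nlinarith [hv]
    refine (Finset.sum_le_sum fun i _ => hchild i).trans ?_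
    have hP : ∑ i, prob c u es i = 1 := sum_prob hF h (by omega)
    have hmeanY : ∑ i, prob c u es i * (a' * Y i) = b := by
      have h1 := chain_mean hF x w (k + 1) es h hlen
      rw [chain] at h1
      refine Eq.trans (Finset.sum_congr rfl fun i _ => ?_) h1
      by_cases hx : perp es (u i) = 0
      · simp [prob, hx]
      · rw [chain_mean hF x w k _ (h.nxt hx) (by rw [length_nxt]; omega), length_nxt]
        simp [a', Y]
    have hkey : ∑ i, prob c u es i * (a' * Y i - b) ^ 2 ≤ ∑ i, prob c u es i * T i := by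
      have e1 : ∑ i, prob c u es i * (a' * Y i - a' * X) ^ 2 ≤ ∑ i, prob c u es i * T i := by
        refine Finset.sum_le_sum fun i _ => mul_le_mul_of_nonneg_left ?_
          (prob_nonneg hF (by omega) i)
        simp only [T]
        nlinarith [sq_nonneg (X - Y i)]
      have e2 : ∑ i, prob c u es i * (a' * Y i - a' * X) ^ 2 =
          ∑ i, prob c u es i * (a' * Y i - b) ^ 2 + (b - a' * X) ^ 2 := by
        have : ∀ i, prob c u es i * (a' * Y i - a' * X) ^ 2 = prob c u es i * (a' * Y i - b) ^ 2 +
            2 * (b - a' * X) * (prob c u es i * (a' * Y i)) +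
            ((b - a' * X) ^ 2 - 2 * (b - a' * X) * b) * prob c u es i := fun i => by ring
        rw [Finset.sum_congr rfl fun i _ => this i, Finset.sum_add_distrib, Finset.sum_add_distrib,
          ← Finset.mul_sum, ← Finset.mul_sum, hP, hmeanY]
        ring
      nlinarith [sq_nonneg (b - a' * X)]
    rw [chain]
    simp only [mul_add, mul_sub, Finset.sum_add_distrib, Finset.sum_sub_distrib, ← Finset.sum_mul,
      hP, one_mul]
    linarith

theorem chainVariance : ChainVariance := by
  intro n m c u k x w τ hF hk hτ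
  have h0 : ([] : List (E n)).length + k ≤ n := by simpa using hk
  have hv := chain_var hF x w k [] Ortho.nil h0
  simp only [perp_nil, List.length_nil, Nat.cast_zero, sub_zero] at hv
  refine hv.trans ?_
  have hS : chain c u k [] (coefSum x w) ≤
      chain c u k [] (fun fs => τ * (‖x‖ ^ 2 * ‖w‖ ^ 2) + (‖x‖ ^ 2 * ‖w‖ ^ 2) * far τ x fs) := by
    refine chain_mono hF k [] Ortho.nil h0 fun fs ho _ => ?_
    have hsum : ∀ y : E n, (fs.map fun e => ⟪e, y⟫ ^ 2).sum ≤ ‖y‖ ^ 2 := fun y => by
      linarith [ho.norm_perp_sq y, sq_nonneg ‖perp fs y‖]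
    have hbd : ∀ M : ℝ, (∀ e ∈ fs, ⟪e, x⟫ ^ 2 ≤ M) → 0 ≤ M → coefSum x w fs ≤ M * ‖w‖ ^ 2 := by
      intro M hM hM0
      refine le_trans ?_ (mul_le_mul_of_nonneg_left (hsum w) hM0)
      rw [coefSum, ← List.sum_map_mul_left]
      exact List.sum_le_sum fun e he => mul_le_mul_of_nonneg_right (hM e he) (sq_nonneg _)
    by_cases hf : ∃ e ∈ fs, τ * ‖x‖ ^ 2 < ⟪e, x⟫ ^ 2
    · rw [far, indicator_of_mem (show fs ∈ {gs : List (E n) | ∃ e ∈ gs, τ * ‖x‖ ^ 2 < ⟪e, x⟫ ^ 2}
        from hf)]
      have h1 := hbd (‖x‖ ^ 2) (fun e he => by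
        have := abs_real_inner_le_norm e x
        rw [ho.2 e he, one_mul] at this
        nlinarith [sq_abs ⟪e, x⟫, abs_nonneg ⟪e, x⟫]) (sq_nonneg _)
      nlinarith [mul_nonneg hτ (mul_nonneg (sq_nonneg ‖x‖) (sq_nonneg ‖w‖))]
    · rw [far, indicator_of_notMem (show fs ∉ {gs : List (E n) | ∃ e ∈ gs, τ * ‖x‖ ^ 2 < ⟪e, x⟫ ^ 2}
        from hf)]
      have h1 := hbd (τ * ‖x‖ ^ 2) (fun e he => le_of_not_gt fun h => hf ⟨e, he, h⟩) (by positivity)
      linarith
  rw [chain_add, chain_const hF k [] Ortho.nil h0, chain_const_mul] at hS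
  simp only [coefSum, List.map_nil, List.sum_nil, sub_zero] at hS ⊢
  linarith

end Vale.Agent.P237.Asymp
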