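import Vale.Agent.P237.Asymp.Pins
import Vale.Agent.P237.Position

/-!
P237: a spanning family has a unimodular position in which it is isotropic. The position is a
minimiser of the total length, and the determinant bound for minimisers forces the weighted Gram
matrix to be a multiple of the identity.
-/

noncomputable section

open MeasureTheory Set Matrix
open scoped RealInnerProductSpace ENNReal

namespace Vale.Agent.P237.Asymp

namespace ExactAux

variable {n m : ℕ}

lemma lin_apply (T : Matrix (Fin n) (Fin n) ℝ) (x : E n) :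
    toEuclideanLin T x = WithLp.toLp 2 (T *ᵥ ⇑x) := rfl

lemma lin_mul (S T : Matrix (Fin n) (Fin n) ℝ) (x : E n) :
    toEuclideanLin (S * T) x = toEuclideanLin S (toEuclideanLin T x) := by
  simp [lin_apply, Matrix.mulVec_mulVec]

/-- A minimiser of the total length over unimodular maps. -/
lemma exists_min (a : Fin m → E n) (hspan : ∀ y, (∀ i, ⟪a i, y⟫ = 0) → y = 0) :
    ∃ T : Matrix (Fin n) (Fin n) ℝ, |T.det| = 1 ∧ ∀ S : Matrix (Fin n) (Fin n) ℝ, |S.det| = 1 →
      ∑ i, ‖toEuclideanLin T (a i)‖ ≤ ∑ i, ‖toEuclideanLin S (a i)‖ := by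
  set f : Matrix (Fin n) (Fin n) ℝ → ℝ := fun T => ∑ i, ‖toEuclideanLin T (a i)‖ with hf
  have hcont : Continuous f := by
    simp only [hf, lin_apply]
    exact continuous_finsetSum _ fun i _ => ((PiLp.continuous_toLp 2 _).comp
      (Continuous.matrix_mulVec continuous_id continuous_const)).norm
  let L : E n →ₗ[ℝ] (Fin m → ℝ) := LinearMap.pi fun i => (innerₛₗ ℝ) (a i)
  have hker : L.ker = ⊥ := LinearMap.ker_eq_bot'.2 fun y hy =>
    hspan y fun i => by simpa [L] using congrFun hy i
  obtain ⟨K, -, hK⟩ := L.exists_antilipschitzWith hker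
  have hbound : ∀ (T : Matrix (Fin n) (Fin n) ℝ) k l, |T k l| ≤ K * f T := fun T k l => by
    set y : E n := WithLp.toLp 2 (T k) with hy
    have h1 : |T k l| ≤ ‖y‖ := by
      simpa [hy, Real.norm_eq_abs] using PiLp.norm_apply_le y l
    have h2 : ‖y‖ ≤ K * ‖L y‖ := by simpa using hK.le_mul_dist y 0
    have h3 : ‖L y‖ ≤ f T := by
      refine (pi_norm_le_iff_of_nonneg (Finset.sum_nonneg fun i _ => norm_nonneg _)).2 fun i => ?_
      have e : L y i = toEuclideanLin T (a i) k := by
        simp [L, hy, lin_apply, PiLp.inner_apply, Matrix.mulVec, dotProduct]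
      rw [e]
      exact (PiLp.norm_apply_le _ k).trans
        (Finset.single_le_sum (f := fun i => ‖toEuclideanLin T (a i)‖) (fun i _ => norm_nonneg _)
          (Finset.mem_univ i))
    exact h1.trans (h2.trans (mul_le_mul_of_nonneg_left h3 K.coe_nonneg))
  set B : Set (Matrix (Fin n) (Fin n) ℝ) := {T | |T.det| = 1 ∧ f T ≤ f 1} with hB
  have hBc : IsCompact B := by
    have hbox : IsCompact (univ.pi fun _ : Fin n => univ.pi fun _ : Fin n =>
        Icc (-(K * f 1)) (K * f 1) : Set (Fin n → Fin n → ℝ)) :=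
      isCompact_univ_pi fun _ => isCompact_univ_pi fun _ => isCompact_Icc
    refine IsCompact.of_isClosed_subset (X := Matrix (Fin n) (Fin n) ℝ) hbox ?_ fun T hT k _ l _ =>
      abs_le.1 ((hbound T k l).trans (mul_le_mul_of_nonneg_left hT.2 K.coe_nonneg))
    exact IsClosed.inter (isClosed_eq (continuous_id.matrix_det.abs) continuous_const)
      (isClosed_le hcont continuous_const)
  obtain ⟨T, hT, hmin⟩ := hBc.exists_isMinOn ⟨1, by simp [hB]⟩ hcont.continuousOn
  refine ⟨T, hT.1, fun S hS => ?_⟩
  rcases le_total (f S) (f 1) with h | h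
  · exact hmin ⟨hS, h⟩
  · exact hT.2.trans h

/-- Equality in the arithmetic and geometric mean inequality for eigenvalues. -/
lemma eq_smul_one {M : Matrix (Fin n) (Fin n) ℝ} (hM : M.PosSemidef) {s : ℝ}
    (hs : 0 < s) (htr : M.trace = n * s) (hdet : s ^ n ≤ M.det) : M = s • 1 := by
  set l := hM.1.eigenvalues with hl
  have hd : M.det = ∏ k, l k := by simpa [hl] using hM.1.det_eq_prod_eigenvalues
  have ht : M.trace = ∑ k, l k := by simpa [hl] using hM.1.trace_eq_sum_eigenvalues
  have hpos : ∀ k, 0 < l k := fun k => (hM.eigenvalues_nonneg k).lt_of_ne fun h0 => by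
    have : M.det = 0 := hd.trans (Finset.prod_eq_zero (Finset.mem_univ k) h0.symm)
    linarith [pow_pos hs n]
  have hall : ∀ k, l k = s := by
    by_contra hne
    push Not at hne
    obtain ⟨k, hk⟩ := hne
    have hle : ∀ j ∈ Finset.univ, Real.log (l j / s) ≤ l j / s - 1 := fun j _ =>
      Real.log_le_sub_one_of_pos (div_pos (hpos j) hs)
    have hlt : Real.log (l k / s) < l k / s - 1 := by
      refine Real.log_lt_sub_one_of_pos (div_pos (hpos k) hs) fun h => hk ?_
      rwa [div_eq_one_iff_eq hs.ne'] at h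
    have h := Finset.sum_lt_sum hle ⟨k, Finset.mem_univ k, hlt⟩
    rw [← Real.log_prod (fun j _ => (div_pos (hpos j) hs).ne'), Finset.sum_sub_distrib,
      ← Finset.sum_div, ← ht, htr, Finset.prod_div_distrib, ← hd] at h
    simp only [Finset.prod_const, Finset.sum_const, Finset.card_univ, Fintype.card_fin,
      nsmul_eq_mul, mul_one, mul_div_assoc, div_self hs.ne', sub_self] at h
    have := Real.log_nonneg ((one_le_div (pow_pos hs n)).2 hdet)
    linarith
  have h1 := hM.1.spectral_theorem
  have e : Matrix.diagonal (RCLike.ofReal ∘ hM.1.eigenvalues)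
      = (algebraMap ℝ (Matrix (Fin n) (Fin n) ℝ)) s := by
    ext i j
    by_cases hij : i = j
    · subst hij; simp [Matrix.algebraMap_matrix_apply, ← hl, hall]
    · simp [Matrix.algebraMap_matrix_apply, hij]
  rw [e, AlgHomClass.commutes] at h1
  rw [h1, Algebra.algebraMap_eq_smul_one]

end ExactAux

open ExactAux in
/-- A spanning family has a unimodular position in which it is isotropic. -/
theorem exactPosition : ExactPosition := by
  intro n m a hn hspan
  obtain ⟨T, hT, hmin⟩ := exists_min a hspan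
  set b : Fin m → E n := fun i => toEuclideanLin T (a i) with hb
  set f₀ := ∑ i, ‖b i‖ with hf₀
  have hTu : IsUnit T := (Matrix.isUnit_iff_isUnit_det T).2
    (isUnit_iff_ne_zero.2 fun h => by rw [h, abs_zero] at hT; exact one_ne_zero hT.symm)
  have hf : 0 < f₀ := by
    refine (Finset.sum_nonneg fun i _ => norm_nonneg (b i)).lt_of_ne fun h => ?_
    have h0 : ∀ i, a i = 0 := fun i => by
      have := (Finset.sum_eq_zero_iff_of_nonneg fun i _ => norm_nonneg (b i)).1 h.symm i
        (Finset.mem_univ i)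
      rw [norm_eq_zero] at this
      simp only [hb, lin_apply, WithLp.toLp_eq_zero] at this
      have h2 := Matrix.mulVec_injective_iff_isUnit.2 hTu
      ext j
      exact congrFun (h2 (this.trans (Matrix.mulVec_zero T).symm)) j
    have := congrFun (congrArg WithLp.ofLp
      (hspan (EuclideanSpace.single ⟨0, hn⟩ 1) fun i => by simp [h0 i])) ⟨0, hn⟩
    simp at this
  have hpos := Vale.Agent.P237.position n m b f₀ hn hf.le fun S hS => by
    simp only [hb, ← lin_mul]
    exact hmin (S * T) (by rw [Matrix.det_mul, abs_mul, hS, hT, mul_one])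
  set M := gram (fun i => ‖b i‖⁻¹) b with hM
  have hMp : M.PosSemidef :=
    Vale.Agent.P237.PositionAux.gram_posSemidef _ b fun i => inv_nonneg.2 (norm_nonneg _)
  have hn0 : (0 : ℝ) < n := by exact_mod_cast hn
  set s := f₀ / n with hs
  have hs0 : 0 < s := div_pos hf hn0
  have htr : M.trace = n * s := by
    rw [hs, mul_div_cancel₀ _ hn0.ne', hM, gram, Matrix.trace_sum, hf₀]
    refine Finset.sum_congr rfl fun i _ => ?_
    rw [Matrix.trace_smul, Matrix.trace_vecMulVec, smul_eq_mul]
    have : ⇑(b i) ⬝ᵥ ⇑(b i) = ‖b i‖ ^ 2 := by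
      rw [EuclideanSpace.real_norm_sq_eq]
      simp [dotProduct, sq]
    rw [this]
    by_cases h0 : ‖b i‖ = 0
    · simp [h0]
    · field_simp
  have hdet : s ^ n ≤ M.det := by
    rw [hs, div_pow, div_le_iff₀ (pow_pos hn0 n)]
    have h1 : f₀ ^ n * f₀ ^ n ≤ f₀ ^ n * (M.det * (n : ℝ) ^ n) := by
      calc f₀ ^ n * f₀ ^ n = f₀ ^ (2 * n) := by rw [← pow_add, two_mul]
        _ ≤ (f₀ * n) ^ n * M.det := hpos
        _ = _ := by rw [mul_pow]; ring
    exact le_of_mul_le_mul_left h1 (pow_pos hf n)
  have hMs := eq_smul_one hMp hs0 htr hdet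
  refine ⟨T, s, hT, hs0, (mul_div_cancel₀ _ hn0.ne').symm, fun x => ?_⟩
  have h := congrArg (fun A => WithLp.toLp 2 (A *ᵥ ⇑x)) hMs
  simp only [hM, gram, Matrix.sum_mulVec, Matrix.smul_mulVec, Matrix.one_mulVec] at h
  rw [show WithLp.toLp 2 (s • ⇑x) = s • x from rfl] at h
  rw [← h, WithLp.toLp_sum]
  refine Finset.sum_congr rfl fun i _ => ?_
  rw [show toEuclideanLin T (a i) = b i from rfl]
  generalize b i = v
  ext j
  simp [Matrix.mulVec, dotProduct, Matrix.vecMulVec_apply, PiLp.inner_apply, Finset.mul_sum,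
    Finset.sum_mul]
  exact Finset.sum_congr rfl fun k _ => by ring

end Vale.Agent.P237.Asymp
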