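import Vale.Agent.P237.Asymp.Base
import Vale.Agent.P237.CapBound

/-!
P237: most points of the ball have small coefficients along the recorded directions.
-/

noncomputable section

open MeasureTheory Set Matrix
open scoped RealInnerProductSpace ENNReal

namespace Vale.Agent.P237.Asymp

variable {n m : ℕ} {c : Fin m → ℝ} {u : Fin m → E n}

/-- Lebesgue measure on the unit ball. -/
private def ballMeasure (n : ℕ) : Measure (E n) := volume.restrict (Metric.closedBall 0 1)

private instance : IsFiniteMeasure (ballMeasure n) :=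
  isFiniteMeasure_restrict.2 measure_closedBall_lt_top.ne

private lemma integrable_chain (f : List (E n) → E n → ℝ) {μ : Measure (E n)}
    (hf : ∀ es, Integrable (f es) μ) (k : ℕ) (es : List (E n)) :
    Integrable (fun x => chain c u k es (fun fs => f fs x)) μ ∧
      ∫ x, chain c u k es (fun fs => f fs x) ∂μ = chain c u k es (fun fs => ∫ x, f fs x ∂μ) := by
  induction k generalizing es with
  | zero => exact ⟨hf es, rfl⟩
  | succ k ih =>
    have hi : ∀ i ∈ (Finset.univ : Finset (Fin m)), Integrable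
        (fun x => prob c u es i * chain c u k (nxt es (u i)) (fun fs => f fs x)) μ :=
      fun i _ => (ih _).1.const_mul _
    refine ⟨by simpa only [chain] using integrable_finsetSum _ hi, ?_⟩
    simp only [chain]
    rw [integral_finsetSum _ hi]
    exact Finset.sum_congr rfl fun i _ => by rw [integral_const_mul, (ih _).2]

/-- The points having a large coefficient along `e`. -/
private def bad (τ : ℝ) (e : E n) : Set (E n) := {x | τ * ‖x‖ ^ 2 < ⟪e, x⟫ ^ 2}

private lemma measurable_bad (τ : ℝ) (e : E n) : MeasurableSet (bad τ e) :=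
  (isOpen_lt (continuous_const.mul (continuous_norm.pow 2))
    ((continuous_const.inner continuous_id).pow 2)).measurableSet

private lemma cap_volume {e : E n} (he : ‖e‖ = 1) {s : ℝ} (hs : 0 ≤ s) (hs1 : s ≤ 1) :
    volume.real {x : E n | s < ⟪e, x⟫ ∧ ‖x‖ ≤ 1} ≤ kappa n * Real.exp (-(n * s ^ 2) / 2) := by
  have h1 : 0 ≤ 1 - s ^ 2 := by nlinarith
  have hsub : {x : E n | s < ⟪e, x⟫ ∧ ‖x‖ ≤ 1} ⊆ Metric.closedBall (s • e) √(1 - s ^ 2) := by
    rintro x ⟨hx, hx1⟩
    rw [Metric.mem_closedBall, dist_eq_norm]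
    refine Real.le_sqrt_of_sq_le ?_
    rw [norm_sub_sq_real, real_inner_smul_right, norm_smul, he, mul_one, Real.norm_eq_abs,
      sq_abs, real_inner_comm]
    nlinarith [norm_nonneg x, mul_le_mul_of_nonneg_left hx.le hs]
  refine (measureReal_mono hsub measure_closedBall_lt_top.ne).trans ?_
  rw [measureReal_def, volume_closedBall_toReal _ (Real.sqrt_nonneg _), mul_comm]
  refine mul_le_mul_of_nonneg_left ?_ ENNReal.toReal_nonneg
  calc √(1 - s ^ 2) ^ n ≤ √(Real.exp (-s ^ 2)) ^ n := by
        gcongr; linarith [Real.add_one_le_exp (-s ^ 2)]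
    _ = Real.exp (-(n * s ^ 2) / 2) := by
        rw [← Real.exp_half, ← Real.exp_nat_mul]; ring_nf

private lemma bad_volume {e : E n} (he : ‖e‖ = 1) {τ : ℝ} (hτ : 0 < τ) (hτ1 : τ ≤ 1) :
    (ballMeasure n).real (bad τ e) ≤
      kappa n * ((1 / 2) ^ n + 2 * Real.exp (-(n * τ) / 8)) := by
  have hs : 0 ≤ √τ / 2 := by positivity
  have hs1 : √τ / 2 ≤ 1 := by linarith [Real.sqrt_le_one.2 hτ1]
  have hsq : (√τ / 2) ^ 2 = τ / 4 := by rw [div_pow, Real.sq_sqrt hτ.le]; norm_num
  rw [measureReal_def, ballMeasure, Measure.restrict_apply' measurableSet_closedBall,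
    ← measureReal_def]
  set A := {x : E n | √τ / 2 < ⟪e, x⟫ ∧ ‖x‖ ≤ 1}
  set B := {x : E n | √τ / 2 < ⟪-e, x⟫ ∧ ‖x‖ ≤ 1}
  have hsub : bad τ e ∩ Metric.closedBall 0 1 ⊆ Metric.closedBall 0 (1 / 2) ∪ (A ∪ B) := by
    rintro x ⟨hb, hx⟩
    rw [mem_closedBall_zero_iff] at hx
    by_cases h2 : ‖x‖ ≤ 1 / 2
    · exact Or.inl (mem_closedBall_zero_iff.2 h2)
    have h3 : (√τ / 2) ^ 2 < ⟪e, x⟫ ^ 2 := by
      rw [hsq]
      refine lt_of_le_of_lt ?_ hb
      have : (1 / 2 : ℝ) ^ 2 ≤ ‖x‖ ^ 2 := pow_le_pow_left₀ (by norm_num) (not_le.1 h2).le 2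
      nlinarith
    have h4 : √τ / 2 < |⟪e, x⟫| := abs_of_nonneg hs ▸ sq_lt_sq.1 h3
    rcases lt_abs.1 h4 with h | h
    · exact Or.inr (Or.inl ⟨h, hx⟩)
    · exact Or.inr (Or.inr ⟨by rwa [inner_neg_left], hx⟩)
  have hfin : ∀ (y : ℝ) (f : E n), volume {x : E n | y < ⟪f, x⟫ ∧ ‖x‖ ≤ 1} ≠ ⊤ := fun y f =>
    ne_top_of_le_ne_top measure_closedBall_lt_top.ne
      (measure_mono (t := Metric.closedBall 0 1) fun x hx => mem_closedBall_zero_iff.2 hx.2)
  refine (measureReal_mono hsub (measure_union_ne_top measure_closedBall_lt_top.ne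
    (measure_union_ne_top (hfin _ _) (hfin _ _)))).trans ?_
  refine (measureReal_union_le _ _).trans ?_
  rw [mul_add]
  refine add_le_add ?_ ((measureReal_union_le _ _).trans ?_)
  · rw [measureReal_def, volume_closedBall_toReal _ (by norm_num), mul_comm, kappa]
  · have hA := cap_volume he hs hs1
    have hB := cap_volume (e := -e) (by rwa [norm_neg]) hs hs1
    rw [hsq] at hA hB
    have : -((n : ℝ) * (τ / 4)) / 2 = -(n * τ) / 8 := by ring
    rw [this] at hA hB
    linarith

private lemma far_eq (τ : ℝ) (x : E n) (es : List (E n)) :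
    far τ x es = {y | ∃ e ∈ es, y ∈ bad τ e}.indicator (fun _ => (1 : ℝ)) x := by
  simp only [far, bad, indicator, mem_ofPred_eq]
  congr

private lemma measurable_badList (τ : ℝ) (es : List (E n)) :
    MeasurableSet {y | ∃ e ∈ es, y ∈ bad τ e} := by
  induction es with
  | nil => simp
  | cons a es ih => simpa [Set.ofPred_or] using (measurable_bad τ a).union ih

private lemma integrable_far (τ : ℝ) (es : List (E n)) :
    Integrable (fun x => far τ x es) (ballMeasure n) := by
  simp only [far_eq]
  exact (integrable_const 1).indicator (measurable_badList τ es)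

private lemma badList_volume {τ : ℝ} (hτ : 0 < τ) (hτ1 : τ ≤ 1) (es : List (E n))
    (h : ∀ e ∈ es, ‖e‖ = 1) :
    (ballMeasure n).real {y | ∃ e ∈ es, y ∈ bad τ e} ≤
      es.length * (kappa n * ((1 / 2) ^ n + 2 * Real.exp (-(n * τ) / 8))) := by
  induction es with
  | nil => simp
  | cons a es ih =>
    have : {y | ∃ e ∈ a :: es, y ∈ bad τ e} = bad τ a ∪ {y | ∃ e ∈ es, y ∈ bad τ e} := by
      ext y; simp
    rw [this, List.length_cons, Nat.cast_succ, add_mul, one_mul, add_comm (_ * _)]
    exact (measureReal_union_le _ _).trans (add_le_add (bad_volume (h a List.mem_cons_self) hτ hτ1)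
      (ih fun e he => h e (List.mem_cons_of_mem _ he)))

/-- Most points of the ball have small recorded coefficients. -/
theorem goodSet : GoodSet := by
  intro n m c u τ δ hn hF hτ hτ1 hδ
  set p : ℝ := kappa n * ((1 / 2) ^ n + 2 * Real.exp (-(n * τ) / 8))
  have hp : 0 ≤ p := mul_nonneg ENNReal.toReal_nonneg (by positivity)
  set F : E n → ℝ := fun x =>
    ∑ k ∈ Finset.range (n + 1), chain c u k [] (fun es => far τ x es)
  have hint := fun k => integrable_chain (c := c) (u := u) (fun es x => far τ x es)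
    (integrable_far τ) k []
  have hnn : ∀ (x : E n), ∀ k ∈ Finset.range (n + 1), 0 ≤ chain c u k [] (far τ x) := fun x k hk =>
    chain_nonneg hF k [] Ortho.nil (by simpa [Finset.mem_range_succ_iff] using hk)
      fun fs _ _ => far_nonneg τ x fs
  have hFi : Integrable F (ballMeasure n) := integrable_finsetSum _ fun k _ => (hint k).1
  have hFb : ∫ x, F x ∂ballMeasure n ≤ ((n : ℝ) + 1) ^ 2 * p := by
    rw [integral_finsetSum _ fun k _ => (hint k).1]
    calc ∑ k ∈ Finset.range (n + 1), ∫ x, chain c u k [] (fun es => far τ x es) ∂ballMeasure n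
        ≤ ∑ k ∈ Finset.range (n + 1), ((n : ℝ) + 1) * p := by
          refine Finset.sum_le_sum fun k hk => ?_
          have hk' : k ≤ n := Finset.mem_range_succ_iff.1 hk
          rw [(hint k).2]
          refine (chain_mono hF k [] Ortho.nil (by simpa using hk')
            (g := fun _ => ((n : ℝ) + 1) * p) fun fs ho hl => ?_).trans
            (chain_const hF k [] Ortho.nil (by simpa using hk') _).le
          simp only [far_eq]
          rw [integral_indicator_const _ (measurable_badList τ fs), smul_eq_mul, mul_one]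
          refine (badList_volume hτ hτ1 fs ho.2).trans (mul_le_mul_of_nonneg_right ?_ hp)
          rw [hl, List.length_nil, Nat.zero_add]
          exact_mod_cast hk'.trans n.le_succ
      _ = ((n : ℝ) + 1) ^ 2 * p := by
          rw [Finset.sum_const, Finset.card_range, nsmul_eq_mul]; push_cast; ring
  set B : Set (E n) := {x | δ ≤ F x} ∩ Metric.closedBall 0 1
  refine ⟨Metric.closedBall 0 1 \ B, sdiff_subset, fun x hx k hk => ?_, ?_⟩
  · by_contra hc
    refine hx.2 ⟨?_, hx.1⟩
    exact (not_le.1 hc).le.trans (Finset.single_le_sum (hnn x) (Finset.mem_range_succ_iff.2 hk))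
  · have hBv : δ * volume.real B ≤ ((n : ℝ) + 1) ^ 2 * p := by
      refine le_trans (le_of_eq ?_) ((mul_meas_ge_le_integral_of_nonneg
        (ae_of_all _ fun x => Finset.sum_nonneg (hnn x)) hFi δ).trans hFb)
      rw [measureReal_def, measureReal_def, ballMeasure,
        Measure.restrict_apply' measurableSet_closedBall]
    have hball : volume.real (Metric.closedBall (0 : E n) 1) = kappa n := by
      rw [measureReal_def, volume_closedBall_toReal _ zero_le_one]; simp [kappa]
    have hsub : Metric.closedBall (0 : E n) 1 ⊆ (Metric.closedBall 0 1 \ B) ∪ B := by simp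
    have hfin : volume (Metric.closedBall (0 : E n) 1) ≠ ⊤ := measure_closedBall_lt_top.ne
    have h := (measureReal_mono (μ := (volume : Measure (E n))) hsub (measure_union_ne_top
      (ne_top_of_le_ne_top hfin (measure_mono sdiff_subset))
      (ne_top_of_le_ne_top hfin (measure_mono inter_subset_right)))).trans
      (measureReal_union_le _ _)
    rw [hball] at h
    have hB2 : volume.real B ≤ ((n : ℝ) + 1) ^ 2 * p / δ := by
      rw [le_div_iff₀ hδ]; linarith
    rw [← measureReal_def]
    have : kappa n * (1 - ((n : ℝ) + 1) ^ 2 * ((1 / 2) ^ n + 2 * Real.exp (-(n * τ) / 8)) / δ) =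
        kappa n - ((n : ℝ) + 1) ^ 2 * p / δ := by ring
    rw [this]
    linarith

/-- The integral over the ball of the indicator of a large recorded coefficient. -/
theorem integral_far_le {τ : ℝ} (hτ : 0 < τ) (hτ1 : τ ≤ 1) (es : List (E n))
    (h : ∀ e ∈ es, ‖e‖ = 1) :
    IntegrableOn (fun x => far τ x es) (Metric.closedBall 0 1) ∧
      ∫ x in Metric.closedBall (0 : E n) 1, far τ x es ≤
        es.length * (kappa n * ((1 / 2) ^ n + 2 * Real.exp (-(n * τ) / 8))) := by
  refine ⟨integrable_far τ es, ?_⟩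
  change ∫ x, far τ x es ∂ballMeasure n ≤ _
  simp only [far_eq]
  rw [integral_indicator_const _ (measurable_badList τ es), smul_eq_mul, mul_one]
  exact badList_volume hτ hτ1 es h

end Vale.Agent.P237.Asymp
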