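import Vale.Agent.P237.Defs

/-!
P237: the statements of the blocks of the asymptotic Petty inequality.

A frame is a decomposition of the identity by unit vectors. The chain picks a direction with
probability proportional to its weight times the squared length of its component orthogonal to the
directions picked so far, and records that component, normalised.
-/

noncomputable section

open MeasureTheory Set Matrix
open scoped RealInnerProductSpace ENNReal

namespace Vale.Agent.P237.Asymp

variable {n m : ℕ}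

/-- Unit vectors with weights that decompose the identity. -/
def Frame (c : Fin m → ℝ) (u : Fin m → E n) : Prop :=
  (∀ i, 0 ≤ c i) ∧ (∀ i, ‖u i‖ = 1) ∧ ∀ x : E n, ∑ i, (c i * ⟪u i, x⟫) • u i = x

/-- The component orthogonal to an orthonormal list. -/
def perp (es : List (E n)) (x : E n) : E n := x - (es.map fun e => ⟪e, x⟫ • e).sum

/-- Being orthonormal, for a list. -/
def Ortho (es : List (E n)) : Prop :=
  es.Pairwise (fun a b => ⟪a, b⟫ = 0) ∧ ∀ e ∈ es, ‖e‖ = 1

/-- The state after picking `x`. -/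
def nxt (es : List (E n)) (x : E n) : List (E n) := (‖perp es x‖⁻¹ • perp es x) :: es

/-- The probability of picking the index `i`. -/
def prob (c : Fin m → ℝ) (u : Fin m → E n) (es : List (E n)) (i : Fin m) : ℝ :=
  c i * ‖perp es (u i)‖ ^ 2 / ((n : ℝ) - es.length)

/-- The expectation of `f` after `k` steps of the chain from the state `es`. -/
def chain (c : Fin m → ℝ) (u : Fin m → E n) : ℕ → List (E n) → (List (E n) → ℝ) → ℝ
  | 0, es, f => f es
  | k + 1, es, f => ∑ i, prob c u es i * chain c u k (nxt es (u i)) f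

/-- One when some recorded direction has a large coefficient in `x`. -/
def far (τ : ℝ) (x : E n) (es : List (E n)) : ℝ :=
  {fs : List (E n) | ∃ e ∈ fs, τ * ‖x‖ ^ 2 < ⟪e, x⟫ ^ 2}.indicator (fun _ => 1) es

/-- The expected entropy term of the direction `x` after `k` steps. -/
def entropyTerm (c : Fin m → ℝ) (u : Fin m → E n) (k : ℕ) (x : E n) : ℝ :=
  chain c u k [] fun es => ‖perp es x‖ ^ 2 * Real.log (‖perp es x‖ ^ 2)

/-- A spanning family has a unimodular position in which it is isotropic. -/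
def ExactPosition : Prop :=
  ∀ (n m : ℕ) (a : Fin m → E n), 0 < n → (∀ y, (∀ i, ⟪a i, y⟫ = 0) → y = 0) →
    ∃ (T : Matrix (Fin n) (Fin n) ℝ) (s : ℝ), |T.det| = 1 ∧ 0 < s ∧
      ∑ i, ‖toEuclideanLin T (a i)‖ = n * s ∧
      ∀ x : E n, ∑ i, (‖toEuclideanLin T (a i)‖⁻¹ * ⟪toEuclideanLin T (a i), x⟫) •
        toEuclideanLin T (a i) = s • x

/-- The volume of an isotropic zonotope is at least the exponential of the chain entropy. -/
def ZonoEntropy : Prop :=
  ∀ (n m : ℕ) (c : Fin m → ℝ) (u : Fin m → E n), 0 < n → Frame c u →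
    ENNReal.ofReal (Real.exp (-(1 / 2) *
      ∑ k ∈ Finset.range n, ((n : ℝ) - k)⁻¹ * ∑ i, c i * entropyTerm c u k (u i))) ≤
      volume (zono fun i => c i • u i)

/-- The chain is a martingale. -/
def ChainMean : Prop :=
  ∀ (n m : ℕ) (c : Fin m → ℝ) (u : Fin m → E n) (k : ℕ) (x w : E n), Frame c u → k ≤ n →
    chain c u k [] (fun es => ⟪perp es x, w⟫) = (1 - (k : ℝ) / n) * ⟪x, w⟫

/-- The variance of the chain is small for directions with small recorded coefficients. -/
def ChainVariance : Prop :=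
  ∀ (n m : ℕ) (c : Fin m → ℝ) (u : Fin m → E n) (k : ℕ) (x w : E n) (τ : ℝ), Frame c u →
    k ≤ n → 0 ≤ τ →
    chain c u k [] (fun es => (⟪perp es x, w⟫ - (1 - (k : ℝ) / n) * ⟪x, w⟫) ^ 2) ≤
      (τ + chain c u k [] (far τ x)) * ‖x‖ ^ 2 * ‖w‖ ^ 2

/-- Most points of the ball have small recorded coefficients. -/
def GoodSet : Prop :=
  ∀ (n m : ℕ) (c : Fin m → ℝ) (u : Fin m → E n) (τ δ : ℝ), 0 < n → Frame c u → 0 < τ →
    τ ≤ 1 → 0 < δ →
    ∃ G : Set (E n), G ⊆ Metric.closedBall 0 1 ∧
      (∀ x ∈ G, ∀ k ≤ n, chain c u k [] (far τ x) ≤ δ) ∧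
      kappa n * (1 - ((n : ℝ) + 1) ^ 2 * ((1 / 2) ^ n + 2 * Real.exp (-(n * τ) / 8)) / δ) ≤
        (volume G).toReal

/-- The entropy term is small along directions close to a good point. -/
def StepBound : Prop :=
  ∀ (n m : ℕ) (c : Fin m → ℝ) (u : Fin m → E n) (k : ℕ) (x v : E n) (τ δ d : ℝ), Frame c u →
    k < n → ‖x‖ = 1 → ‖v‖ = 1 → 0 ≤ τ → chain c u k [] (far τ x) ≤ δ → 0 < d → d ≤ 1 →
    entropyTerm c u k v ≤ ⟪v, x⟫ ^ 2 * ((1 - (k : ℝ) / n) * Real.log (1 - (k : ℝ) / n)) +
      d + (|Real.log d| + 2) * (3 * √(τ + δ))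

end Vale.Agent.P237.Asymp
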