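import Vale.Agent.P237.Asymp.Base

/-!
P237: the entropy term of a direction close to a good point, from the variance bound of the chain.
-/

noncomputable section

open MeasureTheory Set Matrix
open scoped RealInnerProductSpace ENNReal

namespace Vale.Agent.P237.Asymp

/-- `y log y` is Lipschitz on the unit interval up to an additive error. -/
lemma mulLog_sub_le {y z d : ℝ} (hy : 0 ≤ y) (hy1 : y ≤ 1) (hz : 0 ≤ z) (hz1 : z ≤ 1)
    (hd : 0 < d) (hd1 : d ≤ 1) :
    y * Real.log y ≤ z * Real.log z + d + (|Real.log d| + 2) * |y - z| := by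
  have hupper : y * Real.log y ≤ y * Real.log (y + d) := by
    rcases eq_or_lt_of_le hy with rfl | hy'
    · simp
    · exact mul_le_mul_of_nonneg_left (Real.log_le_log hy' (by linarith)) hy
  have hlower : z * Real.log (z + d) ≤ z * Real.log z + d := by
    rcases eq_or_lt_of_le hz with rfl | hz'
    · simp [hd.le]
    · have h := Real.log_le_sub_one_of_pos (show 0 < (z + d) / z by positivity)
      rw [Real.log_div (by positivity) hz'.ne'] at h
      have h2 := mul_le_mul_of_nonneg_left h hz
      have h3 : z * ((z + d) / z - 1) = d := by field_simp; ring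
      nlinarith
  have hL := abs_nonneg (Real.log d)
  have hmid : y * Real.log (y + d) ≤ z * Real.log (z + d) + (|Real.log d| + 2) * |y - z| := by
    rcases le_total z y with h | h
    · rw [abs_of_nonneg (sub_nonneg.2 h)]
      have hdiff : z * (Real.log (y + d) - Real.log (z + d)) ≤ y - z := by
        have h1 := Real.log_le_sub_one_of_pos (show 0 < (y + d) / (z + d) by positivity)
        rw [Real.log_div (by positivity) (by positivity)] at h1
        have h2 : (y + d) / (z + d) - 1 = (y - z) / (z + d) := by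
          field_simp; ring
        have h3 : z * ((y - z) / (z + d)) ≤ y - z := by
          rw [mul_div_assoc', div_le_iff₀ (by positivity)]
          nlinarith [mul_nonneg (sub_nonneg.2 h) hd.le]
        nlinarith [mul_le_mul_of_nonneg_left h1 hz]
      have hlog : Real.log (y + d) ≤ 1 := by
        have := Real.log_le_sub_one_of_pos (show 0 < y + d by positivity)
        linarith
      nlinarith [mul_le_mul_of_nonneg_left hlog (sub_nonneg.2 h),
        mul_nonneg hL (sub_nonneg.2 h)]
    · rw [abs_of_nonpos (sub_nonpos.2 h)]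
      have hdiff : z * (Real.log (y + d) - Real.log (z + d)) ≤ 0 :=
        mul_nonpos_of_nonneg_of_nonpos hz
          (sub_nonpos.2 (Real.log_le_log (by positivity) (by linarith)))
      have hlog : -|Real.log d| ≤ Real.log (y + d) :=
        (neg_abs_le _).trans (Real.log_le_log hd (by linarith))
      nlinarith [mul_le_mul_of_nonneg_left hlog (sub_nonneg.2 h)]
  linarith

/-- The entropy of a mixture of a point with a rest of mass at most `1 - t` is at most `t` times
the entropy of the point. -/
lemma mulLog_mix_le {t q r : ℝ} (ht : 0 ≤ t) (ht1 : t ≤ 1) (hq : 0 ≤ q) (hr : 0 ≤ r)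
    (hr1 : r ≤ 1 - t) :
    (t * q + r) * Real.log (t * q + r) ≤ t * (q * Real.log q) := by
  rcases eq_or_lt_of_le ht1 with h | h
  · subst h
    obtain rfl : r = 0 := by linarith
    simp
  · have hpos : 0 < 1 - t := sub_pos.2 h
    have hb : r / (1 - t) ≤ 1 := (div_le_one hpos).2 hr1
    have hb0 : 0 ≤ r / (1 - t) := div_nonneg hr hpos.le
    have hc := Real.convexOn_mul_log.2 (mem_Ici.2 hq) (mem_Ici.2 hb0) ht hpos.le (by ring)
    simp only [smul_eq_mul, mul_div_cancel₀ r hpos.ne'] at hc
    have hneg : r / (1 - t) * Real.log (r / (1 - t)) ≤ 0 :=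
      mul_nonpos_of_nonneg_of_nonpos hb0 (Real.log_nonpos hb0 hb)
    nlinarith [mul_le_mul_of_nonneg_left hneg hpos.le]

variable {n m : ℕ} {c : Fin m → ℝ} {u : Fin m → E n}

/-- The mean absolute value is at most the root of the mean square. -/
lemma chain_abs_le (hF : Frame c u) {k : ℕ} (hk : k ≤ n) {f : List (E n) → ℝ} {S : ℝ}
    (hS : 0 ≤ S) (h : chain c u k [] (fun es => f es ^ 2) ≤ S) :
    chain c u k [] (fun es => |f es|) ≤ √S := by
  refine le_of_forall_pos_le_add fun ε hε => ?_
  set s := √S + ε with hs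
  have hspos : 0 < s := by positivity
  have hstep : chain c u k [] (fun es => |f es|) ≤
      (2 * s)⁻¹ * chain c u k [] (fun es => f es ^ 2) + s / 2 := by
    calc chain c u k [] (fun es => |f es|)
        ≤ chain c u k [] (fun es => (2 * s)⁻¹ * f es ^ 2 + s / 2) := by
          refine chain_mono hF k [] Ortho.nil (by simpa using hk) fun fs _ _ => ?_
          rw [← sq_abs (f fs)]
          field_simp
          nlinarith [sq_nonneg (|f fs| - s)]
      _ = _ := by
          rw [chain_add, chain_const_mul, chain_const hF k [] Ortho.nil (by simpa using hk)]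
  have hSs : S ≤ s ^ 2 := by
    rw [hs]; nlinarith [Real.sq_sqrt hS, Real.sqrt_nonneg S]
  have h2 : (2 * s)⁻¹ * chain c u k [] (fun es => f es ^ 2) ≤ s / 2 := by
    refine (mul_le_mul_of_nonneg_left (h.trans hSs) (by positivity)).trans_eq ?_
    field_simp
  linarith [hs]

theorem stepBound (hvar : ChainVariance) : StepBound := by
  intro n m c u k x v τ δ d hF hk hx hv hτ hfar hd hd1
  have hk0 : ([] : List (E n)).length + k ≤ n := by simpa using hk.le
  have hδ : 0 ≤ δ :=
    (chain_nonneg hF k [] Ortho.nil hk0 fun fs _ _ => far_nonneg τ x fs).trans hfar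
  set S := τ + δ with hSdef
  have hS : 0 ≤ S := by positivity
  set q := 1 - (k : ℝ) / n with hqdef
  have hn : (0 : ℝ) < n := by exact_mod_cast (Nat.zero_le k).trans_lt hk
  have hq0 : 0 ≤ q := by
    rw [hqdef, sub_nonneg, div_le_one hn]; exact_mod_cast hk.le
  have hq1 : q ≤ 1 := by
    rw [hqdef, sub_le_self_iff]; positivity
  set t := ⟪v, x⟫ with htdef
  set w := v - t • x with hwdef
  have hvw : v = t • x + w := by rw [hwdef]; abel
  have hxx : ⟪x, x⟫ = 1 := by rw [real_inner_self_eq_norm_sq, hx]; norm_num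
  have hxw : ⟪x, w⟫ = 0 := by
    rw [hwdef, inner_sub_right, real_inner_smul_right, hxx, htdef, real_inner_comm]; ring
  have hw2 : ‖w‖ ^ 2 = 1 - t ^ 2 := by
    have := norm_add_sq_real (t • x) w
    rw [← hvw, hv, real_inner_smul_left, hxw, norm_smul, hx, Real.norm_eq_abs, mul_one,
      sq_abs] at this
    linarith
  have ht2 : t ^ 2 ≤ 1 := by nlinarith [sq_nonneg ‖w‖]
  have hA : chain c u k [] (fun es => |⟪perp es x, x⟫ - q|) ≤ √S := by
    refine chain_abs_le hF hk.le hS ?_
    have := hvar n m c u k x x τ hF hk.le hτ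
    simp only [hx, hxx, mul_one, one_pow] at this
    linarith
  have hB : chain c u k [] (fun es => |⟪perp es x, w⟫|) ≤ √S := by
    refine chain_abs_le hF hk.le hS ?_
    have := hvar n m c u k x w τ hF hk.le hτ
    simp only [hxw, mul_zero, sub_zero, hx, one_pow, mul_one] at this
    refine this.trans ?_
    have hw1 : ‖w‖ ^ 2 ≤ 1 := by nlinarith [sq_nonneg t]
    have h0 := chain_nonneg hF k [] Ortho.nil hk0 fun fs _ _ => far_nonneg τ x fs
    nlinarith
  set L := |Real.log d| + 2 with hL
  have hL0 : 0 ≤ L := by positivity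
  have hpt : ∀ es, Ortho es → es.length = ([] : List (E n)).length + k →
      ‖perp es v‖ ^ 2 * Real.log (‖perp es v‖ ^ 2) ≤
        (t ^ 2 * (q * Real.log q) + d) +
          (L * |⟪perp es x, x⟫ - q| + (2 * L) * |⟪perp es x, w⟫|) := by
    intro es ho _
    have hsq : ∀ z : E n, ‖perp es z‖ ^ 2 = ⟪perp es z, z⟫ := fun z => by
      rw [← real_inner_self_eq_norm_sq, ho.inner_perp_perp]
    have hle : ∀ z : E n, ‖perp es z‖ ^ 2 ≤ ‖z‖ ^ 2 := fun z =>
      pow_le_pow_left₀ (norm_nonneg _) (ho.norm_perp_le z) 2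
    have hy : ‖perp es v‖ ^ 2 =
        t ^ 2 * ⟪perp es x, x⟫ + 2 * t * ⟪perp es x, w⟫ + ‖perp es w‖ ^ 2 := by
      rw [hsq v, hsq w, hvw, perp_add, perp_smul]
      simp only [inner_add_left, inner_add_right, real_inner_smul_left, real_inner_smul_right,
        inner_perp_comm es w x]
      ring
    have hy1 : ‖perp es v‖ ^ 2 ≤ 1 := by simpa [hv] using hle v
    have hr : ‖perp es w‖ ^ 2 ≤ 1 - t ^ 2 := hw2 ▸ hle w
    have hz : 0 ≤ t ^ 2 * q + ‖perp es w‖ ^ 2 := by positivity
    have hz1 : t ^ 2 * q + ‖perp es w‖ ^ 2 ≤ 1 := by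
      nlinarith [mul_le_mul_of_nonneg_left hq1 (sq_nonneg t)]
    have hdiff : |‖perp es v‖ ^ 2 - (t ^ 2 * q + ‖perp es w‖ ^ 2)| ≤
        |⟪perp es x, x⟫ - q| + 2 * |⟪perp es x, w⟫| := by
      rw [hy, show t ^ 2 * ⟪perp es x, x⟫ + 2 * t * ⟪perp es x, w⟫ + ‖perp es w‖ ^ 2 -
          (t ^ 2 * q + ‖perp es w‖ ^ 2) =
          t ^ 2 * (⟪perp es x, x⟫ - q) + t * (2 * ⟪perp es x, w⟫) by ring]
      have habs : |t| ≤ 1 := (sq_le_one_iff_abs_le_one t).1 ht2
      refine (abs_add_le _ _).trans (add_le_add ?_ ?_)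
      · rw [abs_mul, abs_of_nonneg (sq_nonneg t)]
        exact mul_le_of_le_one_left (abs_nonneg _) ht2
      · rw [abs_mul, abs_mul 2, abs_two]
        exact mul_le_of_le_one_left (by positivity) habs
    have h1 := mulLog_sub_le (sq_nonneg _) hy1 hz hz1 hd hd1
    have h2 := mulLog_mix_le (sq_nonneg t) ht2 hq0 (sq_nonneg ‖perp es w‖) hr
    have h3 := mul_le_mul_of_nonneg_left hdiff hL0
    linarith
  calc entropyTerm c u k v
      ≤ chain c u k [] (fun es => (t ^ 2 * (q * Real.log q) + d) +
          (L * |⟪perp es x, x⟫ - q| + (2 * L) * |⟪perp es x, w⟫|)) :=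
        chain_mono hF k [] Ortho.nil hk0 hpt
    _ = (t ^ 2 * (q * Real.log q) + d) +
          (L * chain c u k [] (fun es => |⟪perp es x, x⟫ - q|) +
            (2 * L) * chain c u k [] (fun es => |⟪perp es x, w⟫|)) := by
        rw [chain_add, chain_const hF k [] Ortho.nil hk0, chain_add, chain_const_mul,
          chain_const_mul]
    _ ≤ _ := by
        have h1 := mul_le_mul_of_nonneg_left hA hL0
        have h2 := mul_le_mul_of_nonneg_left hB (show 0 ≤ 2 * L by positivity)
        linarith

end Vale.Agent.P237.Asymp
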